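import Vale.Agent.P267.H868.Tw

/-!
# P267 / XM-B1 (helper868): the facts on `X_m`

`HolFacts Y`: `p_g(Y) = 0`, `h^{1,0}(Y) = 0`, `h^{0,0}(Y) = h^{0,1}(Y) = 1`, `h^{0,2}(Y) = 0`,
`χ(𝒪_Y) = 0`. Theorem `holFacts_of_quot`: they pass from `X` to the cyclic covers `X_m`.
-/

set_option linter.unusedSectionVars false
set_option linter.unusedVariables false

open scoped Manifold ContDiff ComplexConjugate Matrix ComplexOrder Topology
open MeasureTheory Set Filter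

noncomputable section

namespace Vale.Agent.P267.H868

open FL XT

/-- facts on a closed surface of class VII -/
structure HolFacts (Y : Type) [TopologicalSpace Y] [ChartedSpace C2 Y] : Prop where
  pg : ∀ s : Y → ℂ, Reg0 ∞ 1 s → dbar0 1 s = 0 → s = 0
  hol1 : ∀ w : Y → Fin 2 → ℂ, Reg10 ∞ w → dbar10 w = 0 → w = 0
  h00 : RR.h0 (RR.OX Y) 0 0 = 1
  h01 : RR.h1 (RR.OX Y) 0 0 = 1
  h02 : RR.h2 (RR.OX Y) 0 0 = 0

theorem HolFacts.chi {Y : Type} [TopologicalSpace Y] [ChartedSpace C2 Y] (h : HolFacts Y) :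
    RR.chi (RR.OX Y) 0 0 = 0 := by
  rw [RR.chi, h.h00, h.h01, h.h02]
  norm_num

variable {M : Type} [TopologicalSpace M] [ChartedSpace C2 M] [IsManifold 𝓘(ℂ, C2) ω M]
  (D : XTData M)
variable {Y : Type} [TopologicalSpace Y] [ChartedSpace C2 Y] [IsManifold 𝓘(ℂ, C2) ω Y]
variable {X : Type} [TopologicalSpace X] [ChartedSpace C2 X] [IsManifold 𝓘(ℂ, C2) ω X]

theorem isHol_triv : (LB.triv (X := Y) (0 : Fin 1)).IsHol 0 := ⟨RR.reg1_zero 0, fun x => by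
  have h2 : (LB.triv (X := Y) (0 : Fin 1)).F02 x = 0 :=
    congrFun (congrArg TwoF.f02 (curv_triv (X := Y) (0 : Fin 1))) x
  rw [h2, add_zero]
  exact congrFun (H469.dbar1_zero (X := Y) (V := ℂ)) x⟩

/-- `h^{0,2} = 0` from `p_g = 0` and Serre duality -/
theorem h02_of_pg (hS : RR.SerreStmt Y) (hpg : ∀ s : Y → ℂ, Reg0 ∞ 1 s → dbar0 1 s = 0 → s = 0) :
    RR.h2 (RR.OX Y) 0 0 = 0 := by
  rw [(hS (Fin 1) (RR.OX Y) 0 isHol_triv 0).2.2, RR.h0, sub_zero, RR.OX, dual_triv, neg_zero]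
  have h : RR.H0 (LB.triv (X := Y) (0 : Fin 1)) 0 1 = ⊥ := by
    rw [Submodule.eq_bot_iff]
    intro s hs
    rw [RR.mem_H0] at hs
    have h2 : (fun x => pr0 (s x)) = 0 := by
      refine hpg _ (reg0_clm pr0 hs.1.1) ?_
      funext x i
      rw [dbar0_clm pr0 hs.1.1, ← db0_triv, hs.2]
      simp
    funext x
    exact eq_zero_of_pr0 (congrFun h2 x)
  rw [h]
  simp

/-- `h^{0,0} = 1` if holomorphic functions are constant -/
theorem h00_of [Nonempty Y] (hc : ∀ u : Y → ℂ, Reg0 ∞ 0 u → dbar0 0 u = 0 → ∃ c : ℂ, u = fun _ => c) :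
    RR.h0 (RR.OX Y) 0 0 = 1 := by
  have h1 : (fun _ : Y => in0 1) ∈ RR.H0 (RR.OX Y) 0 0 := by
    rw [RR.mem_H0]
    refine ⟨⟨?_, sec_triv _⟩, ?_⟩
    · intro e he
      have h5 : loc0 0 e (fun _ : Y => in0 1) = fun _ => in0 1 := by
        rw [LB.loc0_zero]; rfl
      rw [h5]
      exact contDiffOn_const
    · funext x i
      rw [db0_triv, dbar0, LB.loc0_zero]
      exact dzb_const _ _ _
  rw [RR.h0]
  refine finrank_eq_one (⟨_, h1⟩ : RR.H0 (RR.OX Y) 0 0) ?_ ?_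
  · intro h
    obtain ⟨y⟩ := ‹Nonempty Y›
    have h2 := congrFun (congrArg Subtype.val h) y
    have h3 : pr0 (in0 1) = 0 := by
      change in0 1 = 0 at h2
      rw [h2, map_zero]
    rw [pr0_in0] at h3
    exact one_ne_zero h3
  · rintro ⟨s, hs⟩
    have hs' := (RR.mem_H0 _ _ _).1 hs
    obtain ⟨c, hc⟩ := hc (fun x => pr0 (s x)) (reg0_clm pr0 hs'.1.1) (by
      funext x i
      rw [dbar0_clm pr0 hs'.1.1, ← db0_triv, hs'.2]
      simp)
    refine ⟨c, Subtype.ext ?_⟩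
    funext x
    change c • in0 1 = s x
    rw [← in0_pr0 (s x), ← map_smul]
    have h6 : pr0 (s x) = c := congrFun hc x
    rw [h6]
    simp

/-- `h^{0,1} = 1` if all `∂̄`-closed `(0,1)`-forms are `t β + ∂̄u` for a form `β` which is not
`∂̄`-exact -/
theorem h01_of {β : Y → Fin 2 → ℂ} (hβ : Reg1 ∞ 0 β) (hβc : dbar1 0 β = 0)
    (hβe : ∀ u : Y → ℂ, Reg0 ∞ 0 u → dbar0 0 u ≠ β)
    (h : ∀ a : Y → Fin 2 → ℂ, Reg1 ∞ 0 a → dbar1 0 a = 0 → ∃ (t : ℂ) (u : Y → ℂ), Reg0 ∞ 0 u ∧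
      a = t • β + dbar0 0 u) :
    RR.h1 (RR.OX Y) 0 0 = 1 := by
  have h1 : (fun x i => in0 (β x i)) ∈ RR.Z1 (RR.OX Y) 0 0 := by
    rw [RR.mem_Z1]
    refine ⟨⟨reg1_clm in0 hβ, sec1_triv _⟩, ?_⟩
    funext x
    rw [db1_triv, dbar1_clm in0 hβ, hβc]
    simp
  rw [RR.h1]
  have hne : (Submodule.Quotient.mk (⟨_, h1⟩ : RR.Z1 (RR.OX Y) 0 0) : RR.H1 (RR.OX Y) 0 0) ≠ 0 := by
    intro h0
    rw [Submodule.Quotient.mk_eq_zero] at h0
    have h2 : (fun x i => in0 (β x i)) ∈ RR.B1 (RR.OX Y) 0 0 := h0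
    rw [RR.mem_B1] at h2
    obtain ⟨s, hs, hs2⟩ := h2
    refine hβe (fun x => pr0 (s x)) (reg0_clm pr0 hs.1) ?_
    funext x i
    rw [dbar0_clm pr0 hs.1, ← db0_triv, hs2, pr0_in0]
  rw [finrank_eq_one_iff_of_nonzero' _ hne]
  intro y
  obtain ⟨⟨w, hw⟩, rfl⟩ := Submodule.Quotient.mk_surjective _ y
  have hw' := (RR.mem_Z1 _ _ _).1 hw
  obtain ⟨t, u, hu, hwu⟩ := h (fun x i => pr0 (w x i)) (reg1_clm pr0 hw'.1.1) (by
    funext x
    rw [dbar1_clm pr0 hw'.1.1, ← db1_triv, hw'.2]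
    simp)
  refine ⟨t, ?_⟩
  rw [← Submodule.Quotient.mk_smul, Submodule.Quotient.eq]
  change (t • (fun x i => in0 (β x i)) - w) ∈ RR.B1 (RR.OX Y) 0 0
  rw [RR.mem_B1]
  refine ⟨fun x => in0 ((-1 : ℂ) • u x), ⟨reg0_clm in0 (RR.Reg0.smul _ hu), sec_triv _⟩, ?_⟩
  funext x i
  have h3 := congrFun (congrFun hwu x) i
  change pr0 (w x i) = t * β x i + dbar0 0 u x i at h3
  have h4 : Reg0 ∞ 0 ((-1 : ℂ) • u) := RR.Reg0.smul _ hu
  have h5 : dbar0 0 (fun x => in0 (((-1 : ℂ) • u) x)) x i = in0 (dbar0 0 ((-1 : ℂ) • u) x i) :=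
    dbar0_clm in0 h4 x i
  change (RR.OX Y).db0 0 0 (fun x => in0 (((-1 : ℂ) • u) x)) x i = t • in0 (β x i) - w x i
  rw [db0_triv, h5, RR.dbar0_smul _ hu, ← in0_pr0 (w x i), h3, ← map_smul, ← map_sub]
  congr 1
  simp only [Pi.smul_apply, smul_eq_mul]
  ring

/-- converse of `h01_of` -/
theorem exists_of_h01 (h : RR.h1 (RR.OX Y) 0 0 = 1) {β : Y → Fin 2 → ℂ} (hβ : Reg1 ∞ 0 β)
    (hβc : dbar1 0 β = 0) (hβe : ∀ u : Y → ℂ, Reg0 ∞ 0 u → dbar0 0 u ≠ β) {a : Y → Fin 2 → ℂ}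
    (ha : Reg1 ∞ 0 a) (hc : dbar1 0 a = 0) :
    ∃ (t : ℂ) (u : Y → ℂ), Reg0 ∞ 0 u ∧ a = t • β + dbar0 0 u := by
  have hZ : ∀ b : Y → Fin 2 → ℂ, Reg1 ∞ 0 b → dbar1 0 b = 0 →
      (fun x i => in0 (b x i)) ∈ RR.Z1 (RR.OX Y) 0 0 := by
    intro b hb hbc
    rw [RR.mem_Z1]
    refine ⟨⟨reg1_clm in0 hb, sec1_triv _⟩, ?_⟩
    funext x
    rw [db1_triv, dbar1_clm in0 hb, hbc]
    simp
  have hne : (Submodule.Quotient.mk (⟨_, hZ β hβ hβc⟩ : RR.Z1 (RR.OX Y) 0 0) :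
      RR.H1 (RR.OX Y) 0 0) ≠ 0 := by
    intro h0
    rw [Submodule.Quotient.mk_eq_zero] at h0
    have h2 : (fun x i => in0 (β x i)) ∈ RR.B1 (RR.OX Y) 0 0 := h0
    rw [RR.mem_B1] at h2
    obtain ⟨s, hs, hs2⟩ := h2
    refine hβe (fun x => pr0 (s x)) (reg0_clm pr0 hs.1) ?_
    funext x i
    rw [dbar0_clm pr0 hs.1, ← db0_triv, hs2, pr0_in0]
  obtain ⟨t, ht⟩ := (finrank_eq_one_iff_of_nonzero' _ hne).1 h
    (Submodule.Quotient.mk ⟨_, hZ a ha hc⟩)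
  rw [← Submodule.Quotient.mk_smul, Submodule.Quotient.eq] at ht
  have h2 : (t • (fun x i => in0 (β x i)) - fun x i => in0 (a x i)) ∈ RR.B1 (RR.OX Y) 0 0 := ht
  rw [RR.mem_B1] at h2
  obtain ⟨s, hs, hs2⟩ := h2
  have hs0 : Reg0 ∞ 0 (fun x => pr0 (s x)) := reg0_clm pr0 hs.1
  refine ⟨t, (-1 : ℂ) • fun x => pr0 (s x), RR.Reg0.smul _ hs0, ?_⟩
  rw [RR.dbar0_smul _ hs0]
  funext x i
  have h3 := congrFun (congrFun hs2 x) i
  rw [db0_triv] at h3
  have h4 : pr0 (dbar0 0 s x i) = t * β x i - a x i := by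
    rw [h3]
    change pr0 (t • in0 (β x i) - in0 (a x i)) = _
    rw [map_sub, map_smul, pr0_in0, pr0_in0, smul_eq_mul]
  change a x i = t * β x i + (-1) * dbar0 0 (fun x => pr0 (s x)) x i
  rw [dbar0_clm pr0 hs.1, h4]
  ring

theorem dbarf_sh (k : ℤ) (x : M) : dbar0 0 (fun x => (D.f x : ℂ)) (D.sh k x) =
    dbar0 0 (fun x => (D.f x : ℂ)) x := by
  have h := H824.IsQuot.tw_inv (D := D) (m := k) (a := 0) (fun _ => rfl) 1 x
  funext i
  have h2 := congrFun h i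
  simpa [H824.tw] using h2

theorem reg1_dbarf : Reg1 ∞ 0 (dbar0 0 (fun x => (D.f x : ℂ))) := H469.reg_dbar0 D.f_smooth

section quot

variable {D} {m : ℕ} {q : M → Y} (hq : H824.IsQuot D m q)

include hq

/-- the form `∂̄f` on `X_m` -/
theorem desc_dbarf : (fun x => hq.desc (dbar0 0 (fun x => (D.f x : ℂ))) (q x)) =
    dbar0 0 (fun x => (D.f x : ℂ)) := hq.desc_comp fun x => dbarf_sh D m x

theorem reg1_desc_dbarf : Reg1 ∞ 0 (hq.desc (dbar0 0 (fun x => (D.f x : ℂ)))) := by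
  rw [← hq.cm.reg1_comp_iff hq.surj, desc_dbarf hq]
  exact reg1_dbarf D

theorem dbar1_desc_dbarf : dbar1 0 (hq.desc (dbar0 0 (fun x => (D.f x : ℂ)))) = 0 := by
  funext y
  obtain ⟨x, rfl⟩ := hq.surj y
  rw [← hq.cm.dbar1_comp, desc_dbarf hq, H469.dbar1_dbar0 D.f_smooth]
  rfl

theorem equiv_comp {W : Type*} [AddCommGroup W] [Module ℂ W] (s : Y → W) :
    D.Equiv m 1 fun x => s (q x) := fun x => by
  rw [one_smul]
  exact congrArg s (hq.sh x)

theorem desc_dbarf_not_exact [ConnectedSpace M] (hm : 0 < m) (u : Y → ℂ) (hu : Reg0 ∞ 0 u) :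
    dbar0 0 u ≠ hq.desc (dbar0 0 (fun x => (D.f x : ℂ))) := by
  intro h
  have h1 := f_not_exact D hm (t := 1) (hq.cm.reg0_comp hu) (equiv_comp hq u) (by
    rw [one_smul]
    funext x
    rw [hq.cm.dbar0_comp, h]
    exact (congrFun (desc_dbarf hq) x).symm)
  exact one_ne_zero h1

end quot

theorem equiv_inv {W : Type*} [AddCommGroup W] [Module ℂ W] {u : M → W} {k : ℤ}
    (h : D.Equiv k 1 u) (x : M) : u (D.sh k x) = u x := by
  rw [h x, one_smul]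

/-- the inputs `TwIn` from the facts on `X` -/
theorem twIn_of [ConnectedSpace M] {q : M → X} (hq : H824.IsQuot D (1 : ℕ) q)
    (hF : RR.FiniteStmt X) (hS : RR.SerreStmt X) (hRR : RR.RRStmt X) (hX : HolFacts X)
    {ι' : Type} [Fintype ι'] [DecidableEq ι'] (LK : LB X ι') (hLK : RR.IsCanon LK)
    (hK : D.NoFloquetK) {m : ℕ} (hm : 0 < m) : TwIn D m where
  tw ν hν h1 a ha hc he := tw_of D (by simpa using hq) hF hS hRR hX.chi LK hLK hK
    (norm_root hm hν) h1 ha hc he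
  h01 a ha hc he := by
    have hinv : ∀ x, a (D.sh (1 : ℕ) x) = a x := fun x => by
      have := he x
      rw [one_smul] at this
      simpa using this
    have hcomp := hq.desc_comp hinv
    obtain ⟨t, u, hu, h⟩ := exists_of_h01 hX.h01 (reg1_desc_dbarf hq) (dbar1_desc_dbarf hq)
      (fun u hu => desc_dbarf_not_exact hq one_pos u hu) (a := hq.desc a)
      (by rw [← hq.cm.reg1_comp_iff hq.surj, hcomp]; exact ha) (by
        funext y
        obtain ⟨x, rfl⟩ := hq.surj y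
        rw [← hq.cm.dbar1_comp, hcomp, hc]
        rfl)
    refine ⟨t, fun x => u (q x), hq.cm.reg0_comp hu, by simpa using equiv_comp hq u, ?_⟩
    funext x
    have h2 := congrFun h (q x)
    have h3 : hq.desc a (q x) = a x := congrFun hcomp x
    rw [h3] at h2
    rw [h2, Pi.add_apply, Pi.add_apply, Pi.smul_apply, Pi.smul_apply, hq.cm.dbar0_comp]
    have h4 : hq.desc (dbar0 0 (fun x => (D.f x : ℂ))) (q x) = dbar0 0 (fun x => (D.f x : ℂ)) x :=
      congrFun (desc_dbarf hq) x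
    rw [h4]
  h10 w hw hc he := by
    have hinv : ∀ x, w (D.sh (1 : ℕ) x) = w x := fun x => by
      have := he x
      rw [one_smul] at this
      simpa using this
    have hcomp := hq.desc_comp hinv
    have h1 : hq.desc w = 0 := by
      refine hX.hol1 _ ?_ ?_
      · rw [← hq.cm.reg10_comp_iff hq.surj, hcomp]
        exact hw
      · funext y
        obtain ⟨x, rfl⟩ := hq.surj y
        rw [← hq.cm.dbar10_comp, hcomp, hc]
        rfl
    rw [← hcomp, h1]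
    rfl
  pg s hs h he := pg_of D hK hm hs h he

/-- **XM-B1.** The facts pass from `X` to `X_m`. -/
theorem holFacts_of_quot [ConnectedSpace M] {q : M → X} (hq : H824.IsQuot D (1 : ℕ) q)
    (hF : RR.FiniteStmt X) (hS : RR.SerreStmt X) (hRR : RR.RRStmt X) (hX : HolFacts X)
    {ι' : Type} [Fintype ι'] [DecidableEq ι'] (LK : LB X ι') (hLK : RR.IsCanon LK)
    (hK : D.NoFloquetK) {m : ℕ} (hm : 0 < m) {qm : M → Y} (hqm : H824.IsQuot D m qm)
    (hSY : RR.SerreStmt Y) : HolFacts Y := by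
  have I := twIn_of D hq hF hS hRR hX LK hLK hK hm
  have hpg : ∀ s : Y → ℂ, Reg0 ∞ 1 s → dbar0 1 s = 0 → s = 0 := by
    intro s hs h
    have h1 := I.pg (fun x => s (qm x)) (hqm.cm.reg0_comp hs) (by
      funext x
      rw [hqm.cm.dbar0_comp, h]
      rfl) (equiv_comp hqm s)
    funext y
    obtain ⟨x, rfl⟩ := hqm.surj y
    exact congrFun h1 x
  have : Nonempty Y := ⟨qm (Classical.arbitrary M)⟩
  refine ⟨hpg, ?_, ?_, ?_, h02_of_pg hSY hpg⟩
  · intro w hw h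
    have h1 := hol1_eq_zero D hm I (w := fun x => w (qm x)) (hqm.cm.reg10_comp hw) (by
      funext x
      rw [hqm.cm.dbar10_comp, h]
      rfl) (equiv_comp hqm w)
    funext y
    obtain ⟨x, rfl⟩ := hqm.surj y
    exact congrFun h1 x
  · refine h00_of fun u hu hdu => ?_
    obtain ⟨c, hc⟩ := hol_const D hm (hqm.cm.reg0_comp hu) (equiv_comp hqm u) (by
      funext x
      rw [hqm.cm.dbar0_comp, hdu]
      rfl)
    refine ⟨c, funext fun y => ?_⟩
    obtain ⟨x, rfl⟩ := hqm.surj y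
    exact congrFun hc x
  · refine h01_of (reg1_desc_dbarf hqm) (dbar1_desc_dbarf hqm)
      (fun u hu => desc_dbarf_not_exact hqm hm u hu) fun a ha hc => ?_
    obtain ⟨t, u, hu, hue, h⟩ := dbar_closed D hm I (hqm.cm.reg1_comp ha) (by
      funext x
      rw [hqm.cm.dbar1_comp, hc]
      rfl) (equiv_comp hqm a)
    have hcu := hqm.desc_comp (equiv_inv D hue)
    refine ⟨t, hqm.desc u, ?_, ?_⟩
    · rw [← hqm.cm.reg0_comp_iff hqm.surj, hcu]
      exact hu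
    · funext y
      obtain ⟨x, rfl⟩ := hqm.surj y
      have h2 := congrFun h x
      have h4 : hqm.desc (dbar0 0 (fun x => (D.f x : ℂ))) (qm x) =
        dbar0 0 (fun x => (D.f x : ℂ)) x := congrFun (desc_dbarf hqm) x
      change a (qm x) = _ at h2
      rw [h2, Pi.add_apply, Pi.add_apply, Pi.smul_apply, Pi.smul_apply, ← hqm.cm.dbar0_comp, hcu,
        h4]

end Vale.Agent.P267.H868
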