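import Vale.Agent.P267.H868.Out
import Vale.Agent.P267.H857.Alg

/-!
# P267 / XM-B1 (helper868): `b_1(X_m) = 1`, in the language of `OneF`
-/

set_option linter.unusedSectionVars false
set_option linter.unusedVariables false

open scoped Manifold ContDiff ComplexConjugate Matrix ComplexOrder Topology
open MeasureTheory Set Filter

noncomputable section

namespace Vale.Agent.P267.H868

open FL XT

variable {M : Type} [TopologicalSpace M] [ChartedSpace C2 M] [IsManifold 𝓘(ℂ, C2) ω M]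
  {D : XTData M}
variable {Y : Type} [TopologicalSpace Y] [ChartedSpace C2 Y] [IsManifold 𝓘(ℂ, C2) ω Y]
variable {m : ℕ} {q : M → Y} (hq : H824.IsQuot D m q)

theorem cj0_f : H469.cj0 (fun x => (D.f x : ℂ)) = fun x => (D.f x : ℂ) := by
  funext x
  simp [H469.cj0]

theorem delf_eq : del0 (fun x => (D.f x : ℂ)) = H469.cj1 (dbar0 0 (fun x => (D.f x : ℂ))) := by
  rw [← H469.del0_cj, cj0_f]

theorem delf_sh (k : ℤ) (x : M) : del0 (fun x => (D.f x : ℂ)) (D.sh k x) =
    del0 (fun x => (D.f x : ℂ)) x := by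
  rw [delf_eq]
  funext i
  simp only [H469.cj1]
  rw [dbarf_sh]

include hq

/-- the closed real one-form `df` on `X_m` -/
def theta : OneF Y :=
  ⟨hq.desc (del0 (fun x => (D.f x : ℂ))), hq.desc (dbar0 0 (fun x => (D.f x : ℂ)))⟩

theorem desc_delf : (fun x => hq.desc (del0 (fun x => (D.f x : ℂ))) (q x)) =
    del0 (fun x => (D.f x : ℂ)) := hq.desc_comp fun x => delf_sh (D := D) m x

theorem pull_theta : pull1 q (theta hq) = dF0 (fun x => (D.f x : ℂ)) :=
  OneF.ext (desc_delf hq) (desc_dbarf hq)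

theorem theta_real : (theta hq).Real := by
  intro y i
  obtain ⟨x, rfl⟩ := hq.surj y
  have h1 : hq.desc (del0 (fun x => (D.f x : ℂ))) (q x) = del0 (fun x => (D.f x : ℂ)) x :=
    congrFun (desc_delf hq) x
  have h2 : hq.desc (dbar0 0 (fun x => (D.f x : ℂ))) (q x) = dbar0 0 (fun x => (D.f x : ℂ)) x :=
    congrFun (desc_dbarf hq) x
  change hq.desc (del0 (fun x => (D.f x : ℂ))) (q x) i =
    conj (hq.desc (dbar0 0 (fun x => (D.f x : ℂ))) (q x) i)
  rw [h1, h2, delf_eq]
  rfl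

theorem theta_smooth : (theta hq).Smooth :=
  ⟨by
    change Reg10 ∞ (hq.desc (del0 (fun x => (D.f x : ℂ))))
    rw [← hq.cm.reg10_comp_iff hq.surj, desc_delf hq]
    exact H469.reg_del0 D.f_smooth, reg1_desc_dbarf hq⟩

theorem theta_closed : (theta hq).d = 0 := by
  have h1 := hq.cm.d_pull1 (theta hq)
  rw [pull_theta hq] at h1
  have h2 : (dF0 (fun x => (D.f x : ℂ)) : OneF M).d = 0 := by
    refine TwoF.ext ?_ ?_ ?_
    · exact H469.del10_del0 D.f_smooth
    · exact H469.del1_dbar0 D.f_smooth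
    · exact H469.dbar1_dbar0 D.f_smooth
  rw [h2] at h1
  refine TwoF.ext ?_ ?_ ?_
  · funext y
    obtain ⟨x, rfl⟩ := hq.surj y
    exact (congrFun (congrArg TwoF.f20 h1) x).symm
  · funext y
    obtain ⟨x, rfl⟩ := hq.surj y
    exact (congrFun (congrArg TwoF.f11 h1) x).symm
  · funext y
    obtain ⟨x, rfl⟩ := hq.surj y
    exact (congrFun (congrArg TwoF.f02 h1) x).symm

/-- complex form of `b_1 ≤ 1` on `X_m` -/
theorem closed_one_Y [ConnectedSpace M] (hm : 0 < m) (I : TwIn D m) {B : OneF Y}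
    (hB : B.Smooth) (hd : B.d = 0) : ∃ (t : ℂ) (u : Y → ℂ), Reg0 ∞ 0 u ∧
      B = t • theta hq + dF0 u := by
  have h1 := hq.cm.d_pull1 B
  rw [hd] at h1
  obtain ⟨t, u, hu, hue, h10, h01⟩ := closed_one D hm I (hq.cm.smooth_pull1 hB) h1
    (equiv_comp hq B.f10) (equiv_comp hq B.f01)
  have hcu := hq.desc_comp (equiv_inv D hue)
  have hu' : Reg0 ∞ 0 (hq.desc u) := by
    rw [← hq.cm.reg0_comp_iff hq.surj, hcu]
    exact hu
  refine ⟨t, hq.desc u, hu', OneF.ext ?_ ?_⟩
  · funext y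
    obtain ⟨x, rfl⟩ := hq.surj y
    have h2 : B.f10 (q x) = (t • del0 (fun x => (D.f x : ℂ)) + del0 u) x := congrFun h10 x
    have h3 : hq.desc (del0 (fun x => (D.f x : ℂ))) (q x) = del0 (fun x => (D.f x : ℂ)) x :=
      congrFun (desc_delf hq) x
    change B.f10 (q x) = t • hq.desc (del0 (fun x => (D.f x : ℂ))) (q x) +
      del0 (hq.desc u) (q x)
    rw [h2, ← hq.cm.del0_comp, hcu, h3]
    rfl
  · funext y
    obtain ⟨x, rfl⟩ := hq.surj y
    have h2 : B.f01 (q x) = (t • dbar0 0 (fun x => (D.f x : ℂ)) + dbar0 0 u) x := congrFun h01 x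
    have h3 : hq.desc (dbar0 0 (fun x => (D.f x : ℂ))) (q x) =
      dbar0 0 (fun x => (D.f x : ℂ)) x := congrFun (desc_dbarf hq) x
    change B.f01 (q x) = t • hq.desc (dbar0 0 (fun x => (D.f x : ℂ))) (q x) +
      dbar0 0 (hq.desc u) (q x)
    rw [h2, ← hq.cm.dbar0_comp, hcu, h3]
    rfl

omit hq in
theorem bar_dF0 (u : Y → ℂ) : (dF0 u).bar = dF0 (H469.cj0 u) := by
  refine OneF.ext ?_ ?_
  · exact (H469.del0_cj u).symm
  · exact (H469.dbar0_cj u).symm

omit hq in
theorem bar_add (A B : OneF Y) : (A + B).bar = A.bar + B.bar := by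
  refine OneF.ext ?_ ?_ <;> funext x i <;> simp [OneF.bar]

omit hq in
theorem bar_smul (c : ℂ) (A : OneF Y) : (c • A).bar = conj c • A.bar := by
  refine OneF.ext ?_ ?_ <;> funext x i <;> simp [OneF.bar]

omit hq in
theorem dF0_add {u v : Y → ℂ} (hu : Reg0 ∞ 0 u) (hv : Reg0 ∞ 0 v) :
    dF0 (u + v) = dF0 u + dF0 v :=
  OneF.ext (del0_add hu hv) (RR.dbar0_add hu hv)

omit hq in
theorem dF0_smul {u : Y → ℂ} (c : ℂ) (hu : Reg0 ∞ 0 u) : dF0 (c • u) = c • dF0 u :=
  OneF.ext (del0_smul c hu) (RR.dbar0_smul c hu)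

/-- **`b_1(X_m) = 1`**: every closed real one-form on `X_m` is, with a unique real coefficient, a
multiple of `theta = df` plus the differential of a real function. -/
theorem b1_Y [ConnectedSpace M] (hm : 0 < m) (I : TwIn D m) {B : OneF Y}
    (hB : B.Smooth) (hr : B.Real) (hd : B.d = 0) :
    ∃! t : ℝ, ∃ u : Y → ℂ, Reg0 ∞ 0 u ∧ (∀ x, conj (u x) = u x) ∧
      B - t • theta hq = dF0 u := by
  obtain ⟨t, u, hu, h⟩ := closed_one_Y hq hm I hB hd
  have hbar : B = conj t • theta hq + dF0 (H469.cj0 u) := by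
    have h1 := (OneF.real_iff_bar B).1 hr
    have h2 := (OneF.real_iff_bar (theta hq)).1 (theta_real hq)
    conv_lhs => rw [← h1, h]
    rw [bar_add, bar_smul, h2, bar_dF0]
  have hu2 : Reg0 ∞ 0 (H469.cj0 u) := H469.r0cj hu
  refine ⟨t.re, ⟨(1 / 2 : ℂ) • (u + H469.cj0 u), RR.Reg0.smul _ (RR.Reg0.add hu hu2), ?_, ?_⟩, ?_⟩
  · intro x
    simp only [H469.cj0, Pi.smul_apply, Pi.add_apply, smul_eq_mul, map_mul, map_add,
      Complex.conj_conj, map_div₀, map_one, map_ofNat]
    ring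
  · have e1 : (t.re : ℝ) • theta hq = (t.re : ℂ) • theta hq := by
      refine OneF.ext ?_ ?_ <;> funext x i <;> simp
    rw [dF0_smul _ (RR.Reg0.add hu hu2), dF0_add hu hu2, e1]
    have e2 : B = (1 / 2 : ℂ) • (B + B) := by
      rw [← two_smul ℂ B, smul_smul]; norm_num
    have e3 : B + B = (t + conj t) • theta hq + (dF0 u + dF0 (H469.cj0 u)) := by
      nth_rewrite 1 [h]
      rw [hbar]
      module
    rw [e2, e3, Complex.add_conj]
    rw [smul_add, smul_smul]
    have e4 : (1 / 2 : ℂ) * ((2 * t.re : ℝ) : ℂ) = (t.re : ℂ) := by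
      push_cast
      ring
    rw [e4]
    abel
  · rintro s ⟨v, hv, -, hs⟩
    have h3 : (s : ℂ) = t := by
      have h4 : ((t - s : ℂ)) = 0 := by
        refine f_not_exact D hm (t := t - s) (u := fun x => (v + (-1 : ℂ) • u) (q x))
          (hq.cm.reg0_comp (RR.Reg0.add hv (RR.Reg0.smul _ hu))) (equiv_comp hq _) ?_
        funext x
        rw [hq.cm.dbar0_comp, RR.dbar0_add hv (RR.Reg0.smul _ hu), RR.dbar0_smul _ hu]
        have h5 : B.f01 (q x) - s • (theta hq).f01 (q x) = dbar0 0 v (q x) :=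
          congrFun (congrArg OneF.f01 hs) (q x)
        have h6 : B.f01 (q x) = t • (theta hq).f01 (q x) + dbar0 0 u (q x) :=
          congrFun (congrArg OneF.f01 h) (q x)
        have h7 : (theta hq).f01 (q x) = dbar0 0 (fun x => (D.f x : ℂ)) x :=
          congrFun (desc_dbarf hq) x
        rw [h7] at h5 h6
        rw [Pi.add_apply, Pi.smul_apply, Pi.smul_apply, ← h5, h6]
        funext i
        simp only [Pi.smul_apply, Pi.add_apply, Pi.sub_apply, smul_eq_mul, Complex.real_smul]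
        ring
      exact (sub_eq_zero.1 h4).symm
    have := congrArg Complex.re h3
    simpa using this

end Vale.Agent.P267.H868
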