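import Vale.Agent.P267.H399.Calc
import Vale.Agent.P267.H469.Del2
import Vale.Agent.P267.H661.Smp

/-! P267 / H868 (package XM-B1): pluriharmonic functions whose modulus attains its maximum are
constant. -/

set_option linter.unusedSectionVars false
set_option maxSynthPendingDepth 3

open scoped Manifold ContDiff ComplexConjugate Matrix ComplexOrder Topology
open MeasureTheory Set Filter

noncomputable section

namespace Vale.Agent.P267.H868

open FL

/-- evaluation of a bilinear form on the diagonal -/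
def evL (w : C2) : (C2 →L[ℝ] C2 →L[ℝ] ℝ) →L[ℝ] ℝ :=
  (ContinuousLinearMap.apply ℝ ℝ w).comp (ContinuousLinearMap.apply ℝ (C2 →L[ℝ] ℝ) w)

@[simp] theorem evL_apply (w : C2) (B : C2 →L[ℝ] C2 →L[ℝ] ℝ) : evL w B = B w w := rfl

/-- the Laplacian as a functional of the second derivative -/
def lapL : (C2 →L[ℝ] C2 →L[ℝ] ℝ) →L[ℝ] ℝ :=
  ∑ j : Fin 2, (evL (Pi.single j 1) + evL (Pi.single j Complex.I))

theorem lapL_apply (B : C2 →L[ℝ] C2 →L[ℝ] ℝ) :
    lapL B = ∑ j : Fin 2, (B (Pi.single j 1) (Pi.single j 1) +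
      B (Pi.single j Complex.I) (Pi.single j Complex.I)) := by
  simp [lapL]

theorem clm_eq_zero {ξ : C2 →L[ℝ] ℝ} (h1 : ∀ j : Fin 2, ξ (Pi.single j 1) = 0)
    (h2 : ∀ j : Fin 2, ξ (Pi.single j Complex.I) = 0) : ξ = 0 := by
  ext v
  have hv : v = ∑ j : Fin 2, ((v j).re • (Pi.single j 1 : C2) +
      (v j).im • (Pi.single j Complex.I : C2)) := by
    ext k
    simp only [Finset.sum_apply, Pi.add_apply, Pi.smul_apply, Fin.sum_univ_two]
    fin_cases k
    · simp [Complex.re_add_im]
    · simp [Complex.re_add_im]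
  rw [hv, map_sum]
  simp [map_add, map_smul, h1, h2]

theorem lapL_pos {ξ : C2 →L[ℝ] ℝ} (hξ : ξ ≠ 0) : 0 < lapL (ξ.smulRight ξ) := by
  rw [lapL_apply]
  simp only [ContinuousLinearMap.smulRight_apply, smul_apply, smul_eq_mul,
    Fin.sum_univ_two]
  by_contra hc
  rw [not_lt] at hc
  apply hξ
  have a1 := mul_self_nonneg (ξ (Pi.single 0 1))
  have a2 := mul_self_nonneg (ξ (Pi.single 0 Complex.I))
  have a3 := mul_self_nonneg (ξ (Pi.single 1 1))
  have a4 := mul_self_nonneg (ξ (Pi.single 1 Complex.I))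
  refine clm_eq_zero (Fin.forall_fin_two.2 ⟨?_, ?_⟩) (Fin.forall_fin_two.2 ⟨?_, ?_⟩) <;>
    exact mul_self_eq_zero.1 (by linarith)

/-- the second derivative of the real part -/
theorem fderiv2_re {g : C2 → ℂ} {z : C2} (hg : ContDiffAt ℝ 2 g z) (u v : C2) :
    fderiv ℝ (fderiv ℝ fun y => (g y).re) z u v = (fderiv ℝ (fderiv ℝ g) z u v).re := by
  have h1 : ∀ᶠ y in 𝓝 z, fderiv ℝ (fun y => (g y).re) y = Complex.reCLM.comp (fderiv ℝ g y) := by
    filter_upwards [(hg.eventually (by simp))] with y hy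
    exact (Complex.reCLM.hasFDerivAt.comp y
      (hy.differentiableAt (by norm_num)).hasFDerivAt).fderiv
  have h1' : (fderiv ℝ fun y => (g y).re) =ᶠ[𝓝 z] fun y => Complex.reCLM.comp (fderiv ℝ g y) := h1
  rw [h1'.fderiv_eq]
  have hd : DifferentiableAt ℝ (fderiv ℝ g) z :=
    (hg.fderiv_right (m := 1) (by norm_num)).differentiableAt (by norm_num)
  have h2 : HasFDerivAt (fun y => Complex.reCLM.comp (fderiv ℝ g y))
      (((ContinuousLinearMap.compL ℝ C2 ℂ ℝ) Complex.reCLM).comp (fderiv ℝ (fderiv ℝ g) z)) z :=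
    ((ContinuousLinearMap.compL ℝ C2 ℂ ℝ) Complex.reCLM).hasFDerivAt.comp z hd.hasFDerivAt
  rw [h2.fderiv]
  rfl

theorem four_dz_dzb {g : C2 → ℂ} {z : C2} (hg : ContDiffAt ℝ 2 g z) (j : Fin 2) :
    4 * dz j (dzb j g) z = fderiv ℝ (fderiv ℝ g) z (Pi.single j 1) (Pi.single j 1) +
      fderiv ℝ (fderiv ℝ g) z (Pi.single j Complex.I) (Pi.single j Complex.I) := by
  have e1 := wirt_wirt hg j j Complex.I (-Complex.I)
  simp only [neg_smul, ← sub_eq_add_neg] at e1
  have l1 : dz j (dzb j g) z = _ := e1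
  rw [l1, second_symm hg (Pi.single j Complex.I) (Pi.single j 1)]
  simp only [smul_eq_mul]
  linear_combination (-(1 : ℂ)) * (fderiv ℝ (fderiv ℝ g) z (Pi.single j Complex.I)
    (Pi.single j Complex.I)) * Complex.I_mul_I

/-- local statement -/
theorem local_const {O : Set C2} (hO : IsOpen O) {g : C2 → ℂ}
    (hg : ∀ y ∈ O, ContDiffAt ℝ 2 g y) (h : ∀ y ∈ O, ∑ j, dz j (dzb j g) y = 0) {R : ℝ}
    (hR : ∀ y ∈ O, ‖g y‖ ≤ R) {x : C2} (hx : x ∈ O) (hgx : g x = R) : ∀ᶠ y in 𝓝 x, g y = R := by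
  have h1 : ∀ᶠ y in 𝓝 x, (g y).re = R := by
    refine H661.smp_open hO (u := fun y => (g y).re) (a := fun _ => lapL) (b := fun _ => 0)
      (fun y hy => Complex.reCLM.contDiff.contDiffAt.comp y (hg y hy))
      (fun y _ => continuousAt_const) (fun y _ => continuousAt_const)
      (fun y _ ξ hξ => lapL_pos hξ) ?_ (M := R)
      (fun y hy => (Complex.re_le_norm _).trans (hR y hy)) hx (by simp [hgx])
    intro y hy
    have h2 := h y hy
    have h3 : lapL (fderiv ℝ (fderiv ℝ fun y => (g y).re) y) = (4 * ∑ j, dz j (dzb j g) y).re := by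
      rw [lapL_apply, Finset.mul_sum, Complex.re_sum]
      refine Finset.sum_congr rfl fun j _ => ?_
      rw [fderiv2_re (hg y hy), fderiv2_re (hg y hy), four_dz_dzb (hg y hy), Complex.add_re]
    rw [h3, h2]
    simp
  filter_upwards [h1, hO.mem_nhds hx] with y hy hyO
  have h2 := hR y hyO
  have h3 : (g y).im = 0 := by
    have h4 : ‖g y‖ ^ 2 = (g y).re ^ 2 + (g y).im ^ 2 := by
      rw [← Complex.normSq_eq_norm_sq, Complex.normSq_apply]; ring
    have h5 : ‖g y‖ ^ 2 ≤ R ^ 2 := by
      have := norm_nonneg (g y)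
      nlinarith
    rw [hy] at h4
    have : (g y).im ^ 2 ≤ 0 := by linarith
    exact pow_eq_zero_iff (two_ne_zero) |>.1 (le_antisymm this (sq_nonneg _))
  exact Complex.ext (by simp [hy]) (by simp [h3])

variable {M : Type*} [TopologicalSpace M] [ChartedSpace C2 M] [IsManifold 𝓘(ℂ, C2) ω M]

/-- a smooth function is continuous -/
theorem reg0_continuous {n : WithTop ℕ∞} {u : M → ℂ} (hu : Reg0 n 0 u) : Continuous u := by
  rw [continuous_iff_continuousAt]
  intro x
  have h1 := hu.contDiffAt (chart_mem_atlas C2 x) (mem_chart_target C2 x)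
  rw [LB.loc0_zero] at h1
  have h2 : ContinuousAt (fun y => (u ∘ (chartAt C2 x).symm) (chartAt C2 x y)) x :=
    ContinuousAt.comp (g := u ∘ (chartAt C2 x).symm) h1.continuousAt
      ((chartAt C2 x).continuousAt (mem_chart_source C2 x))
  refine h2.congr ?_
  filter_upwards [(chartAt C2 x).open_source.mem_nhds (mem_chart_source C2 x)] with y hy
  simp [(chartAt C2 x).left_inv hy]

/-- **Maximum principle.** A smooth function `u` with `∂∂̄u = 0` whose modulus attains its maximum
is constant. -/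
theorem const_of_ddb [PreconnectedSpace M] {u : M → ℂ} (hu : Reg0 ∞ 0 u)
    (h : ddb u = 0) {x0 : M} (hmax : ∀ x, ‖u x‖ ≤ ‖u x0‖) (x : M) : u x = u x0 := by
  by_cases h0 : u x0 = 0
  · have := hmax x
    rw [h0, norm_zero] at this
    rw [h0]
    exact norm_le_zero_iff.1 this
  set R := ‖u x0‖ with hR
  have hRpos : 0 < R := norm_pos_iff.2 h0
  set c : ℂ := (R : ℂ) / u x0 with hc
  have hcn : ‖c‖ = 1 := by
    rw [hc, norm_div, Complex.norm_real, Real.norm_of_nonneg hRpos.le, hR, div_self hRpos.ne']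
  have hcu : Continuous u := reg0_continuous hu
  have hcl : IsClopen {y | u y = u x0} := by
    refine ⟨isClosed_eq hcu continuous_const, isOpen_iff_mem_nhds.2 fun y hy => ?_⟩
    have hy' : u y = u x0 := hy
    set e := chartAt C2 y with he
    have hem := chart_mem_atlas C2 y
    have hg : ContDiffOn ℝ ∞ (loc0 0 e u) e.target := hu e hem
    have hge : ∀ z, loc0 0 e u z = u (e.symm z) := fun z => by rw [LB.loc0_zero]; rfl
    have hgA : ∀ z ∈ e.target, ContDiffAt ℝ ∞ (loc0 0 e u) z := fun z hz =>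
      (hg z hz).contDiffAt (e.open_target.mem_nhds hz)
    have hlap : ∀ z ∈ e.target, ∀ i j, dz i (dzb j (loc0 0 e u)) z = 0 := by
      intro z hz i j
      have h1 : dzb j (loc0 0 e u) =ᶠ[𝓝 z] fun w => loc1 0 e (dbar0 0 u) w j := by
        filter_upwards [e.open_target.mem_nhds hz] with w hw
        exact (loc1_dbar0 hem hw ((hgA w hw).differentiableAt (by simp)) j).symm
      rw [dz_congr h1]
      have h2 := H469.del1_law (H469.r1mono (H469.reg_dbar0 hu) H469.one_le_infty) hem hz i j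
      have h3 : del1 (dbar0 0 u) = (0 : M → Matrix (Fin 2) (Fin 2) ℂ) := h
      rw [h3] at h2
      rw [← h2]
      simp [loc11]
    have hcl2 : ∀ z ∈ e.target, ∀ j, dz j (dzb j (fun w => c * loc0 0 e u w)) z = 0 := by
      intro z hz j
      have h1 : dzb j (fun w => c * loc0 0 e u w) =ᶠ[𝓝 z] fun w => c • dzb j (loc0 0 e u) w := by
        filter_upwards [e.open_target.mem_nhds hz] with w hw
        exact dzb_const_smul c ((hgA w hw).differentiableAt (by simp)) j
      rw [dz_congr h1, dz_const_smul c _ j, hlap z hz, smul_zero]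
      have h3 : ContDiffAt ℝ 1 (dzb j (loc0 0 e u)) z :=
        contDiffAt_dzb (hgA z hz) (by rw [one_add_one_eq_two]; exact H469.two_le_infty) j
      exact h3.differentiableAt (by norm_num)
    have hy2 : e y ∈ e.target := mem_chart_target C2 y
    have key := local_const e.open_target (g := fun w => c * loc0 0 e u w)
      (fun z hz => contDiffAt_const.mul ((hgA z hz).of_le H469.two_le_infty))
      (fun z hz => Finset.sum_eq_zero fun j _ => hcl2 z hz j) (R := R)
      (fun z hz => by rw [norm_mul, hcn, one_mul, hge]; exact hmax _) hy2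
      (by rw [hge, e.left_inv (mem_chart_source C2 y), hy', hc, div_mul_cancel₀ _ h0])
    have h5 : ∀ᶠ w in 𝓝 y, c * loc0 0 e u (e w) = R :=
      (e.continuousAt (mem_chart_source C2 y)).eventually key
    filter_upwards [h5, e.open_source.mem_nhds (mem_chart_source C2 y)] with w hw hws
    rw [hge, e.left_inv hws] at hw
    have hc0 : c ≠ 0 := by
      intro hh
      rw [hh, norm_zero] at hcn
      exact zero_ne_one hcn
    apply mul_left_cancel₀ hc0
    rw [hw, hc, div_mul_cancel₀ _ h0]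
  have := hcl.eq_univ ⟨x0, rfl⟩
  have hx : x ∈ {y | u y = u x0} := by rw [this]; trivial
  exact hx

end Vale.Agent.P267.H868
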