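import Vale.Agent.P267.H868.B1
import Vale.Agent.P267.H857.Betti2
import Vale.Agent.P267.H622.Coh

/-!
# P267 / XM-B1 (helper868): final statements on the cyclic covers `CovM hh m`

`holFacts_covM`, `bettiSucc_covM`: from the facts on `X` (`HolFacts X`), nefness of `K` and
`K·K < 0` one gets `HolFacts (CovM hh m)` and `b_1 (CovM hh m) = 1`.
-/

set_option linter.unusedSectionVars false
set_option linter.unusedVariables false

open scoped Manifold ContDiff ComplexConjugate Matrix ComplexOrder Topology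
open MeasureTheory Set Filter

noncomputable section

namespace Vale.Agent.P267.H868

open FL XT

section quot

variable {M : Type} [TopologicalSpace M] [ChartedSpace C2 M] [IsManifold 𝓘(ℂ, C2) ω M]
  {D : XTData M}
variable {Y : Type} [TopologicalSpace Y] [ChartedSpace C2 Y] [IsManifold 𝓘(ℂ, C2) ω Y]

/-- **`b_1(X_m) = 1`** -/
theorem bettiSucc_of_quot [ConnectedSpace M] {m : ℕ} (hm : 0 < m) {q : M → Y}
    (hq : H824.IsQuot D m q) (I : TwIn D m) : BettiSucc Y 0 1 := by
  rw [H857.bettiSucc_zero_iff]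
  refine ⟨fun _ => theta hq, fun _ => H857.mem_Z1F.2 ⟨theta_smooth hq, theta_closed hq⟩, ?_⟩
  intro B hB
  obtain ⟨hs, hd⟩ := H857.mem_Z1F.1 hB
  obtain ⟨t, u, hu, h⟩ := closed_one_Y hq hm I hs hd
  refine ⟨fun _ => t, ?_, ?_⟩
  · change B - ∑ i : Fin 1, t • theta hq ∈ H857.B1F Y
    rw [H857.mem_B1F]
    refine ⟨u, hu, ?_⟩
    rw [Fin.sum_univ_one, h]
    abel
  · intro s hs2
    change B - ∑ i : Fin 1, s i • theta hq ∈ H857.B1F Y at hs2
    rw [H857.mem_B1F, Fin.sum_univ_one] at hs2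
    obtain ⟨v, hv, hs2⟩ := hs2
    have h4 : t - s 0 = 0 := by
      refine f_not_exact D hm (t := t - s 0) (u := fun x => (v + (-1 : ℂ) • u) (q x))
        (hq.cm.reg0_comp (RR.Reg0.add hv (RR.Reg0.smul _ hu))) (equiv_comp hq _) ?_
      funext x
      rw [hq.cm.dbar0_comp, RR.dbar0_add hv (RR.Reg0.smul _ hu), RR.dbar0_smul _ hu]
      have h5 : B.f01 (q x) - s 0 • (theta hq).f01 (q x) = dbar0 0 v (q x) :=
        congrFun (congrArg OneF.f01 hs2) (q x)
      have h6 : B.f01 (q x) = t • (theta hq).f01 (q x) + dbar0 0 u (q x) :=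
        congrFun (congrArg OneF.f01 h) (q x)
      have h7 : (theta hq).f01 (q x) = dbar0 0 (fun x => (D.f x : ℂ)) x :=
        congrFun (desc_dbarf hq) x
      rw [h7] at h5 h6
      rw [Pi.add_apply, Pi.smul_apply, Pi.smul_apply, ← h5, h6]
      funext i
      simp only [Pi.smul_apply, Pi.add_apply, Pi.sub_apply, smul_eq_mul]
      ring
    funext i
    have : i = 0 := Subsingleton.elim _ _
    subst this
    exact (sub_eq_zero.1 h4).symm

end quot

section cov

open H158

variable {X : Type} [TopologicalSpace X] [ConnectedSpace X] [ChartedSpace C2 X]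
  [IsManifold 𝓘(ℂ, C2) ω X] {hh : C(X, UnitAddCircle)}

omit [ConnectedSpace X] in
/-- `Cov.p` is the quotient by the deck group -/
theorem isQuot_p {D : XTData (Cov hh)} (hD : ∀ x, D.γ x = Cov.γ x) :
    H824.IsQuot D ((1 : ℕ) : ℤ) (Cov.p : Cov hh → X) where
  cm := chartMap_p
  surj := Cov.surjective_p
  sh x := by
    rw [sh_eq_shift (Homeomorph.ext hD)]
    exact Cov.p_shift _ _
  fib x y h := by
    obtain ⟨k, hk⟩ := Cov.p_eq_iff.1 h
    exact ⟨k, by rw [sh_eq_shift (Homeomorph.ext hD), hk]; simp⟩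

omit [ConnectedSpace X] in
/-- `Cov.toM m` is the quotient by the `m`-th power of the deck transformation -/
theorem isQuot_toM {D : XTData (Cov hh)} (hD : ∀ x, D.γ x = Cov.γ x) (m : ℕ) [NeZero m] :
    H824.IsQuot D (m : ℤ) (Cov.toM m : Cov hh → CovM hh m) where
  cm := chartMap_toM
  surj := Cov.surjective_toM
  sh x := by
    rw [sh_eq_shift (Homeomorph.ext hD)]
    exact toM_shift_m x
  fib x y h := by
    obtain ⟨k, hk⟩ := Cov.toM_eq_iff.1 h
    exact ⟨k, by rw [sh_eq_shift (Homeomorph.ext hD)]; exact hk⟩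

/-- the inputs on the infinite cyclic cover -/
theorem twIn_cov (hp : Primitive hh) {D : XTData (Cov hh)} (hD : ∀ x, D.γ x = Cov.γ x)
    (hF : RR.FiniteStmt X) (hS : RR.SerreStmt X) (hRR : RR.RRStmt X) (hX : HolFacts X)
    {ι' : Type} [Fintype ι'] [DecidableEq ι'] (LK : LB X ι') (hLK : RR.IsCanon LK)
    (hK : D.NoFloquetK) (m : ℕ) [NeZero m] : TwIn D m := by
  have : LocallyConnectedSpace X := ChartedSpace.locallyConnectedSpace C2 X
  have : ConnectedSpace (Cov hh) := Cov.connectedSpace hp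
  exact twIn_of D (isQuot_p hD) hF hS hRR hX LK hLK hK (NeZero.pos m)

/-- **XM-B1**: `p_g = 0`, `h^{1,0} = 0`, `h^{0,1} = 1`, `χ(𝒪) = 0` on `X_m` -/
theorem holFacts_covM (hp : Primitive hh) {D : XTData (Cov hh)} (hD : ∀ x, D.γ x = Cov.γ x)
    (hF : RR.FiniteStmt X) (hS : RR.SerreStmt X) (hRR : RR.RRStmt X) (hX : HolFacts X)
    {ι' : Type} [Fintype ι'] [DecidableEq ι'] (LK : LB X ι') (hLK : RR.IsCanon LK)
    (hK : D.NoFloquetK) (m : ℕ) [NeZero m] (hSm : RR.SerreStmt (CovM hh m)) :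
    HolFacts (CovM hh m) := by
  have : LocallyConnectedSpace X := ChartedSpace.locallyConnectedSpace C2 X
  have : ConnectedSpace (Cov hh) := Cov.connectedSpace hp
  exact holFacts_of_quot D (isQuot_p hD) hF hS hRR hX LK hLK hK (NeZero.pos m)
    (isQuot_toM hD m) hSm

/-- **XM-B1**: `b_1(X_m) = 1` -/
theorem bettiSucc_covM (hp : Primitive hh) {D : XTData (Cov hh)} (hD : ∀ x, D.γ x = Cov.γ x)
    (hF : RR.FiniteStmt X) (hS : RR.SerreStmt X) (hRR : RR.RRStmt X) (hX : HolFacts X)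
    {ι' : Type} [Fintype ι'] [DecidableEq ι'] (LK : LB X ι') (hLK : RR.IsCanon LK)
    (hK : D.NoFloquetK) (m : ℕ) [NeZero m] : BettiSucc (CovM hh m) 0 1 := by
  have : LocallyConnectedSpace X := ChartedSpace.locallyConnectedSpace C2 X
  have : ConnectedSpace (Cov hh) := Cov.connectedSpace hp
  exact bettiSucc_of_quot (NeZero.pos m) (isQuot_toM hD m)
    (twIn_cov hp hD hF hS hRR hX LK hLK hK m)

end cov

end Vale.Agent.P267.H868
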