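import Vale.Agent.P267.H868.Eig
import Vale.Agent.P267.H868.Const
import Vale.Agent.P267.H622.Reg
import Vale.Agent.P267.H221.Out

/-!
# P267 / XM-B1 (helper868): closed one-forms and `∂̄`-closed `(0,1)`-forms on the cyclic covers `X_m`

Language of `XTData`: an object on `X_m` is an object on `M` invariant under `γ^m`.
-/

set_option linter.unusedSectionVars false
set_option linter.unusedVariables false

open scoped Manifold ContDiff ComplexConjugate Matrix ComplexOrder Topology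
open MeasureTheory Set Filter

noncomputable section

namespace Vale.Agent.P267.H868

open FL XT

variable {M : Type} [TopologicalSpace M] [ChartedSpace C2 M] [IsManifold 𝓘(ℂ, C2) ω M]

theorem del1_add_smul {a b : M → Fin 2 → ℂ} (ha : Reg1 ∞ 0 a) (hb : Reg1 ∞ 0 b) (c : ℂ) :
    del1 (a + c • b) = del1 a + c • del1 b := by
  funext x
  ext i j
  have e : (fun z => loc1 0 (chartAt C2 x) (a + c • b) z j) =
      fun z => loc1 0 (chartAt C2 x) a z j + c • loc1 0 (chartAt C2 x) b z j := by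
    funext z
    rw [H469.loc1_add, H469.loc1_smul]
  have h1 := RR.Reg1.differentiableAt ha x j
  have h2 := RR.Reg1.differentiableAt hb x j
  rw [del1, Matrix.of_apply, e, dz_add h1 (h2.fun_const_smul c), dz_const_smul c h2]
  rfl

theorem del1_zero : del1 (0 : M → Fin 2 → ℂ) = 0 := by
  funext x
  ext i j
  have e : (fun z => loc1 0 (chartAt C2 x) (0 : M → Fin 2 → ℂ) z j) = fun _ => 0 := by
    funext z
    simp [loc1]
  rw [del1, Matrix.of_apply, e, dz_const]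
  rfl

theorem dbar1_zero' : dbar1 0 (0 : M → Fin 2 → ℂ) = 0 := H469.dbar1_zero

theorem reg1_add_smul {a b : M → Fin 2 → ℂ} (ha : Reg1 ∞ 0 a) (hb : Reg1 ∞ 0 b) (c : ℂ) :
    Reg1 ∞ 0 (a + c • b) := RR.Reg1.add ha (RR.Reg1.smul c hb)

theorem dbar1_add_smul {a b : M → Fin 2 → ℂ} (ha : Reg1 ∞ 0 a) (hb : Reg1 ∞ 0 b) (c : ℂ) :
    dbar1 0 (a + c • b) = dbar1 0 a + c • dbar1 0 b := by
  rw [RR.dbar1_add ha (RR.Reg1.smul c hb), RR.dbar1_smul c hb]

/-- `∂̄`-closed smooth `(0,1)`-forms -/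
def Zb : Submodule ℂ (M → Fin 2 → ℂ) where
  carrier := {a | Reg1 ∞ 0 a ∧ dbar1 0 a = 0}
  add_mem' := fun {a b} ha hb => ⟨RR.Reg1.add ha.1 hb.1, by
    rw [RR.dbar1_add ha.1 hb.1, ha.2, hb.2, add_zero]⟩
  zero_mem' := ⟨RR.reg1_zero 0, H469.dbar1_zero⟩
  smul_mem' := fun c a ha => ⟨RR.Reg1.smul c ha.1, by rw [RR.dbar1_smul c ha.1, ha.2, smul_zero]⟩

theorem del1_add {a b : M → Fin 2 → ℂ} (ha : Reg1 ∞ 0 a) (hb : Reg1 ∞ 0 b) :
    del1 (a + b) = del1 a + del1 b := by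
  have := del1_add_smul ha hb 1
  rwa [one_smul, one_smul] at this

theorem del1_smul {a : M → Fin 2 → ℂ} (c : ℂ) (ha : Reg1 ∞ 0 a) :
    del1 (c • a) = c • del1 a := by
  have := del1_add_smul (RR.reg1_zero 0) ha c
  rwa [zero_add, del1_zero, zero_add] at this

/-- closed `(0,1)`-forms -/
def Za : Submodule ℂ (M → Fin 2 → ℂ) where
  carrier := {a | Reg1 ∞ 0 a ∧ dbar1 0 a = 0 ∧ del1 a = 0}
  add_mem' := fun {a b} ha hb => ⟨RR.Reg1.add ha.1 hb.1, by
    rw [RR.dbar1_add ha.1 hb.1, ha.2.1, hb.2.1, add_zero], by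
    rw [del1_add ha.1 hb.1, ha.2.2, hb.2.2, add_zero]⟩
  zero_mem' := ⟨RR.reg1_zero 0, H469.dbar1_zero, del1_zero⟩
  smul_mem' := fun c a ha => ⟨RR.Reg1.smul c ha.1, by rw [RR.dbar1_smul c ha.1, ha.2.1, smul_zero],
    by rw [del1_smul c ha.1, ha.2.2, smul_zero]⟩

variable (D : XTData M)

/-- translation of `(0,1)`-forms -/
def Tr : (M → Fin 2 → ℂ) →ₗ[ℂ] (M → Fin 2 → ℂ) where
  toFun a := fun x => a (D.sh 1 x)
  map_add' _ _ := rfl
  map_smul' _ _ := rfl

theorem Tr_apply (a : M → Fin 2 → ℂ) (x : M) : Tr D a x = a (D.sh 1 x) := rfl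

theorem Tr_pow (k : ℕ) (a : M → Fin 2 → ℂ) (x : M) : (Tr D ^ k) a x = a (D.sh k x) := by
  induction k generalizing x with
  | zero => simp
  | succ k ih =>
    rw [pow_succ', Module.End.mul_apply, Tr_apply, ih, ← D.sh_add]
    push_cast
    rfl

theorem equiv_one_iff {a : M → Fin 2 → ℂ} {ν : ℂ} : Tr D a = ν • a ↔ D.Equiv 1 ν a := by
  constructor
  · intro h x
    have := congrFun h x
    rw [Tr_apply] at this
    exact this
  · intro h
    funext x
    rw [Tr_apply, h x]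
    rfl

theorem Tr_mem_Zb {a : M → Fin 2 → ℂ} (ha : a ∈ (Zb : Submodule ℂ (M → Fin 2 → ℂ))) :
    Tr D a ∈ (Zb : Submodule ℂ (M → Fin 2 → ℂ)) := by
  refine ⟨(D.chartMap_sh 1).reg1_comp ha.1, ?_⟩
  funext x
  have h := (D.chartMap_sh 1).dbar1_comp 0 a x
  have h2 := congrFun ha.2 (D.sh 1 x)
  exact h.trans h2

theorem Tr_mem_Za {a : M → Fin 2 → ℂ} (ha : a ∈ (Za : Submodule ℂ (M → Fin 2 → ℂ))) :
    Tr D a ∈ (Za : Submodule ℂ (M → Fin 2 → ℂ)) := by
  refine ⟨(Tr_mem_Zb D ⟨ha.1, ha.2.1⟩).1, (Tr_mem_Zb D ⟨ha.1, ha.2.1⟩).2, ?_⟩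
  funext x
  have h := (D.chartMap_sh 1).del1_comp a x
  have h2 := congrFun ha.2.2 (D.sh 1 x)
  exact h.trans h2

/-- The inputs on the closed surface `X = M / γ` (and `p_g(X_m) = 0`). -/
structure TwIn (m : ℕ) : Prop where
  /-- `H¹(X, L_ν) = 0` for the flat line bundles `L_ν`, `ν ^ m = 1`, `ν ≠ 1` -/
  tw : ∀ ν : ℂ, ν ^ m = 1 → ν ≠ 1 → ∀ a : M → Fin 2 → ℂ, Reg1 ∞ 0 a → dbar1 0 a = 0 →
    D.Equiv 1 ν a → ∃ u : M → ℂ, Reg0 ∞ 0 u ∧ dbar0 0 u = a ∧ D.Equiv 1 ν u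
  /-- `h^{0,1}(X) = 1` -/
  h01 : ∀ a : M → Fin 2 → ℂ, Reg1 ∞ 0 a → dbar1 0 a = 0 → D.Equiv 1 1 a →
    ∃ (t : ℂ) (u : M → ℂ), Reg0 ∞ 0 u ∧ D.Equiv 1 1 u ∧
      a = t • dbar0 0 (fun x => (D.f x : ℂ)) + dbar0 0 u
  /-- `h^{1,0}(X) = 0` -/
  h10 : ∀ w : M → Fin 2 → ℂ, Reg10 ∞ w → dbar10 w = 0 → D.Equiv 1 1 w → w = 0
  /-- `p_g(X_m) = 0` -/
  pg : ∀ s : M → ℂ, Reg0 ∞ 1 s → dbar0 1 s = 0 → D.Equiv m 1 s → s = 0

theorem equiv_one_mul {W : Type*} [AddCommGroup W] [Module ℂ W] {u : M → W} {ν : ℂ}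
    (h : D.Equiv 1 ν u) (k : ℕ) : D.Equiv k (ν ^ k) u := by
  induction k with
  | zero => intro x; simp
  | succ k ih =>
    intro x
    have h1 : D.sh ((k + 1 : ℕ) : ℤ) x = D.sh 1 (D.sh k x) := by
      rw [← D.sh_add]; congr 1; push_cast; ring
    rw [h1, h, ih, smul_smul, pow_succ']

/-- a continuous function `u` with `u ∘ γ = ν • u`, `|ν| = 1`, attains the maximum of its modulus -/
theorem exists_max {V : Type*} [NormedAddCommGroup V] [NormedSpace ℂ V] {u : M → V}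
    (hu : Continuous u) {ν : ℂ} (hν : ‖ν‖ = 1) (h : D.Equiv 1 ν u) [Nonempty M] :
    ∃ x0, ∀ x, ‖u x‖ ≤ ‖u x0‖ := by
  have hinv : ∀ (k : ℤ) x, ‖u (D.sh k x)‖ = ‖u x‖ := by
    intro k
    refine XTData.sh_induction (P := fun k => ∀ x, ‖u (D.sh k x)‖ = ‖u x‖) (fun x => by simp)
      (fun k ih x => ?_) (fun k ih x => ?_) k
    · rw [show k + 1 = 1 + k by ring, D.sh_add, h, norm_smul, hν, one_mul, ih]
    · rw [← ih x]
      have h1 : D.sh k x = D.sh 1 (D.sh (k - 1) x) := by rw [← D.sh_add]; congr 1; ring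
      rw [h1, h, norm_smul, hν, one_mul]
  have hne : (D.slab 0).Nonempty := by
    obtain ⟨x⟩ := ‹Nonempty M›
    refine ⟨D.sh (-⌊D.f x⌋) x, ?_⟩
    have h1 : D.sh (-⌊D.f x⌋) x ∈ D.slab (⌊D.f x⌋ + -⌊D.f x⌋) :=
      D.sh_mem_slab.2 (D.mem_slab_floor x)
    rwa [add_neg_cancel] at h1
  obtain ⟨x0, -, hx0⟩ := (D.isCompact_slab 0).exists_isMaxOn hne hu.norm.continuousOn
  refine ⟨x0, fun x => ?_⟩
  have h1 : D.sh (-⌊D.f x⌋) x ∈ D.slab (⌊D.f x⌋ + -⌊D.f x⌋) :=
    D.sh_mem_slab.2 (D.mem_slab_floor x)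
  rw [add_neg_cancel] at h1
  have h2 : ‖u (D.sh (-⌊D.f x⌋) x)‖ ≤ ‖u x0‖ := hx0 h1
  rwa [hinv] at h2

theorem norm_root {ν : ℂ} {m : ℕ} (hm : 0 < m) (h : ν ^ m = 1) : ‖ν‖ = 1 := by
  have h1 : ‖ν‖ ^ m = 1 := by rw [← norm_pow, h, norm_one]
  exact (pow_eq_one_iff_of_nonneg (norm_nonneg _) hm.ne').1 h1

/-- `h^{1,0}(X_m) = 0`, in conjugate form: there are no closed `γ^m`-invariant `(0,1)`-forms. -/
theorem Za_eq_zero [ConnectedSpace M] {m : ℕ} (hm : 0 < m) (I : TwIn D m) {a : M → Fin 2 → ℂ}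
    (ha : a ∈ (Za : Submodule ℂ (M → Fin 2 → ℂ))) (he : D.Equiv m 1 a) : a = 0 := by
  have key := mem_of_eig (Tr D) (Za : Submodule ℂ (M → Fin 2 → ℂ)) ⊥
    (fun x hx => Tr_mem_Za D hx) hm ?_ ha ?_
  · exact (Submodule.mem_bot ℂ).1 key
  · intro ν hν y hy hTy
    rw [Submodule.mem_bot]
    rw [equiv_one_iff] at hTy
    by_cases h1 : ν = 1
    · subst h1
      have h2 : H469.cj1 y = 0 := by
        refine I.h10 _ (H469.r1cj hy.1) ?_ ?_
        · rw [H469.dbar10_cj, hy.2.2]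
          funext x
          ext i j
          simp [H469.cj11]
        · intro x
          have := hTy x
          rw [one_smul] at this ⊢
          funext i
          simp only [H469.cj1]
          rw [this]
      rw [← H469.cj1_cj1 y, h2]
      funext x i
      simp [H469.cj1]
    · obtain ⟨u, hu, hua, hue⟩ := I.tw ν hν h1 y hy.1 hy.2.1 hTy
      have hddb : ddb u = 0 := by
        change del1 (dbar0 0 u) = 0
        rw [hua, hy.2.2]
      obtain ⟨x0, hx0⟩ := exists_max D (reg0_continuous hu) (norm_root hm hν) hue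
      have hc : u = fun _ => u x0 := funext fun x => const_of_ddb hu hddb hx0 x
      rw [← hua, hc]
      funext x i
      have h3 : loc0 0 (chartAt C2 x) (fun _ : M => u x0) = fun _ => u x0 := by
        rw [LB.loc0_zero]; rfl
      rw [dbar0, h3, dzb_const]
      rfl
  · funext x
    rw [Tr_pow, he x, one_smul]

theorem del11_zero : H469.del11 (0 : M → Matrix (Fin 2) (Fin 2) ℂ) = 0 := by
  funext x j
  have h : ∀ k l, (fun z => loc11 (chartAt C2 x) (0 : M → Matrix (Fin 2) (Fin 2) ℂ) z k l) =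
      fun _ => 0 := by
    intro k l
    funext z
    simp [loc11]
  unfold H469.del11
  rw [h, h, dz_const, dz_const, sub_zero]
  rfl

/-- **`h^{1,0}(X_m) = 0`**: there are no holomorphic one-forms on `X_m`. -/
theorem hol1_eq_zero [ConnectedSpace M] {m : ℕ} (hm : 0 < m) (I : TwIn D m)
    {w : M → Fin 2 → ℂ} (hw : Reg10 ∞ w) (h : dbar10 w = 0) (he : D.Equiv m 1 w) : w = 0 := by
  have hdel : del10 w = 0 := by
    refine I.pg _ (H469.reg_del10 hw) ?_ ?_
    · have h1 := H469.dbar0_del10 hw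
      rw [h, del11_zero, add_zero] at h1
      exact h1
    · intro x
      have h1 := (D.chartMap_sh m).del10_comp w x
      have h2 : (fun z => w (D.sh m z)) = w := by funext z; rw [he z, one_smul]
      rw [h2] at h1
      rw [← h1, one_smul]
  have h3 : H469.cj1 w = 0 := by
    refine Za_eq_zero D hm I ⟨H469.r10cj hw, ?_, ?_⟩ ?_
    · rw [H469.dbar1_cj, hdel]
      funext x
      simp [H469.cj0]
    · rw [H469.del1_cj, h]
      funext x
      ext i j
      simp [H469.cj11]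
    · intro x
      have := he x
      rw [one_smul] at this ⊢
      funext i
      simp only [H469.cj1]
      rw [this]
  rw [← H469.cj1_cj1 w, h3]
  funext x i
  simp [H469.cj1]

/-! ### `h^{0,1}(X_m) = 1` -/

theorem dbar0_add {u v : M → ℂ} (hu : Reg0 ∞ 0 u) (hv : Reg0 ∞ 0 v) :
    dbar0 0 (u + v) = dbar0 0 u + dbar0 0 v := RR.dbar0_add hu hv

/-- the `(0,1)`-forms `t ∂̄f + ∂̄u`, `u` a function on `X_m` -/
def Pf (m : ℕ) : Submodule ℂ (M → Fin 2 → ℂ) where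
  carrier := {a | ∃ (t : ℂ) (u : M → ℂ), Reg0 ∞ 0 u ∧ D.Equiv m 1 u ∧
    a = t • dbar0 0 (fun x => (D.f x : ℂ)) + dbar0 0 u}
  add_mem' := by
    rintro a b ⟨t, u, hu, hue, rfl⟩ ⟨s, v, hv, hve, rfl⟩
    refine ⟨t + s, u + v, RR.Reg0.add hu hv, fun x => ?_, ?_⟩
    · rw [Pi.add_apply, Pi.add_apply, hue, hve, smul_add]
    · rw [RR.dbar0_add hu hv, add_smul]; abel
  zero_mem' := by
    refine ⟨0, 0, RR.reg0_zero 0, fun x => by simp, ?_⟩
    have h := RR.dbar0_smul (κ := 0) (0 : ℂ) (RR.reg0_zero (X := M) (V := ℂ) 0)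
    rw [zero_smul, zero_smul] at h
    rw [h, zero_smul, add_zero]
  smul_mem' := by
    rintro c a ⟨t, u, hu, hue, rfl⟩
    refine ⟨c * t, c • u, RR.Reg0.smul c hu, fun x => ?_, ?_⟩
    · rw [Pi.smul_apply, Pi.smul_apply, hue, smul_comm]
    · rw [RR.dbar0_smul c hu, smul_add, smul_smul]

/-- **`h^{0,1}(X_m) ≤ 1`** -/
theorem dbar_closed {m : ℕ} (hm : 0 < m) (I : TwIn D m) {a : M → Fin 2 → ℂ}
    (ha : Reg1 ∞ 0 a) (hc : dbar1 0 a = 0) (he : D.Equiv m 1 a) :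
    ∃ (t : ℂ) (u : M → ℂ), Reg0 ∞ 0 u ∧ D.Equiv m 1 u ∧
      a = t • dbar0 0 (fun x => (D.f x : ℂ)) + dbar0 0 u := by
  refine mem_of_eig (Tr D) (Zb : Submodule ℂ (M → Fin 2 → ℂ)) (Pf D m)
    (fun x hx => Tr_mem_Zb D hx) hm ?_ ⟨ha, hc⟩ ?_
  · intro ν hν y hy hTy
    rw [equiv_one_iff] at hTy
    by_cases h1 : ν = 1
    · subst h1
      obtain ⟨t, u, hu, hue, h⟩ := I.h01 y hy.1 hy.2 hTy
      exact ⟨t, u, hu, by simpa using equiv_one_mul D hue m, h⟩
    · obtain ⟨u, hu, hua, hue⟩ := I.tw ν hν h1 y hy.1 hy.2 hTy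
      exact ⟨0, u, hu, by simpa [hν] using equiv_one_mul D hue m, by
        rw [hua, zero_smul, zero_add]⟩
  · funext x
    rw [Tr_pow, he x, one_smul]

/-! ### `b_1(X_m) = 1` -/

theorem reg0_diff {s : M → ℂ} (hs : Reg0 ∞ 0 s) (x : M) :
    DifferentiableAt ℝ (fun z => s ((chartAt C2 x).symm z)) (chartAt C2 x x) := by
  have h := RR.Reg0.differentiableAt hs x
  rwa [LB.loc0_zero] at h

theorem del0_add {s t : M → ℂ} (hs : Reg0 ∞ 0 s) (ht : Reg0 ∞ 0 t) :
    del0 (s + t) = del0 s + del0 t := by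
  funext x i
  simp only [del0, Pi.add_apply]
  exact dz_add (reg0_diff hs x) (reg0_diff ht x) i

theorem del0_smul {s : M → ℂ} (c : ℂ) (hs : Reg0 ∞ 0 s) : del0 (c • s) = c • del0 s := by
  funext x i
  simp only [del0, Pi.smul_apply]
  exact dz_const_smul c (reg0_diff hs x) i

theorem reg10_diff {c : M → Fin 2 → ℂ} (hc : Reg10 ∞ c) (x : M) (i : Fin 2) :
    DifferentiableAt ℝ (fun z => loc10 (chartAt C2 x) c z i) (chartAt C2 x x) := by
  have h := ((hc _ (chart_mem_atlas C2 x)).contDiffAt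
    ((chartAt C2 x).open_target.mem_nhds (mem_chart_target C2 x))).differentiableAt (by simp)
  exact (differentiableAt_pi.1 h) i

theorem reg10_add {a b : M → Fin 2 → ℂ} (ha : Reg10 ∞ a) (hb : Reg10 ∞ b) :
    Reg10 ∞ (a + b) := fun e he =>
  ((ha e he).add (hb e he)).congr fun z _ => by
    funext i
    exact H469.loc10_add (e := e) (z := z) a b i

theorem reg10_smul {a : M → Fin 2 → ℂ} (c : ℂ) (ha : Reg10 ∞ a) : Reg10 ∞ (c • a) :=
  fun e he => ((ha e he).const_smul c).congr fun z _ => by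
    funext i
    exact H469.loc10_smul (e := e) (z := z) (c := c) a i

theorem dbar10_add {a b : M → Fin 2 → ℂ} (ha : Reg10 ∞ a) (hb : Reg10 ∞ b) :
    dbar10 (a + b) = dbar10 a + dbar10 b := by
  funext x
  ext i j
  have e : (fun z => loc10 (chartAt C2 x) (a + b) z i) =
      fun z => loc10 (chartAt C2 x) a z i + loc10 (chartAt C2 x) b z i := by
    funext z
    exact H469.loc10_add (e := chartAt C2 x) (z := z) a b i
  rw [dbar10, Matrix.of_apply, e, dzb_add (reg10_diff ha x i) (reg10_diff hb x i), neg_add]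
  rfl

theorem dbar10_smul {a : M → Fin 2 → ℂ} (c : ℂ) (ha : Reg10 ∞ a) :
    dbar10 (c • a) = c • dbar10 a := by
  funext x
  ext i j
  have e : (fun z => loc10 (chartAt C2 x) (c • a) z i) =
      fun z => c • loc10 (chartAt C2 x) a z i := by
    funext z
    exact H469.loc10_smul (e := chartAt C2 x) (z := z) (c := c) a i
  rw [dbar10, Matrix.of_apply, e, dzb_const_smul c (reg10_diff ha x i), ← smul_neg]
  rfl

/-- **`b_1(X_m) ≤ 1`**, complex form -/
theorem closed_one [ConnectedSpace M] {m : ℕ} (hm : 0 < m) (I : TwIn D m) {A : OneF M}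
    (hA : A.Smooth) (hd : A.d = ⟨0, 0, 0⟩) (h1 : D.Equiv m 1 A.f10) (h2 : D.Equiv m 1 A.f01) :
    ∃ (t : ℂ) (u : M → ℂ), Reg0 ∞ 0 u ∧ D.Equiv m 1 u ∧
      A.f10 = t • del0 (fun x => (D.f x : ℂ)) + del0 u ∧
      A.f01 = t • dbar0 0 (fun x => (D.f x : ℂ)) + dbar0 0 u := by
  have e20 : del10 A.f10 = 0 := congrArg TwoF.f20 hd
  have e11 : del1 A.f01 + dbar10 A.f10 = 0 := congrArg TwoF.f11 hd
  have e02 : dbar1 0 A.f01 = 0 := congrArg TwoF.f02 hd
  obtain ⟨t, u, hu, hue, h⟩ := dbar_closed D hm I hA.s01 e02 h2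
  refine ⟨t, u, hu, hue, ?_, h⟩
  set F : M → ℂ := t • (fun x => (D.f x : ℂ)) + u with hF
  have hFs : Reg0 ∞ 0 F := RR.Reg0.add (RR.Reg0.smul t D.f_smooth) hu
  have hFb : dbar0 0 F = A.f01 := by
    rw [hF, RR.dbar0_add (RR.Reg0.smul t D.f_smooth) hu, RR.dbar0_smul t D.f_smooth, h]
  have hFd : del0 F = t • del0 (fun x => (D.f x : ℂ)) + del0 u := by
    rw [hF, del0_add (RR.Reg0.smul t D.f_smooth) hu, del0_smul t D.f_smooth]
  rw [← hFd]
  have hF10 : Reg10 ∞ (del0 F) := H469.reg_del0 hFs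
  have hw : A.f10 + (-1 : ℂ) • del0 F = 0 := by
    refine hol1_eq_zero D hm I (reg10_add hA.s10 (reg10_smul _ hF10)) ?_ ?_
    · rw [dbar10_add hA.s10 (reg10_smul _ hF10), dbar10_smul _ hF10]
      have h3 := H469.del1_dbar0 hFs
      rw [hFb] at h3
      have h4 : dbar10 (del0 F) = dbar10 A.f10 := by
        have := h3.trans e11.symm
        exact add_left_cancel this
      rw [h4, neg_one_smul, add_neg_cancel]
    · have hFe : ∀ x, del0 F (D.sh m x) = del0 F x := by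
        intro x
        have h3 : (fun z => F (D.sh m z)) = F + fun _ => t * m := by
          funext z
          simp only [hF, Pi.add_apply, Pi.smul_apply, D.f_sh, hue z, smul_eq_mul]
          push_cast
          ring
        rw [← (D.chartMap_sh m).del0_comp F x, h3]
        have hc : Reg0 ∞ 0 (fun _ : M => t * (m : ℂ)) := by
          intro e he
          have h5 : loc0 0 e (fun _ : M => t * (m : ℂ)) = fun _ => t * (m : ℂ) := by
            rw [LB.loc0_zero]; rfl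
          rw [h5]
          exact contDiffOn_const
        rw [del0_add hFs hc]
        funext i
        simp [del0]
      intro x
      rw [Pi.add_apply, Pi.add_apply, Pi.smul_apply, Pi.smul_apply, h1 x, hFe, one_smul, one_smul]
  rw [neg_one_smul, ← sub_eq_add_neg, sub_eq_zero] at hw
  exact hw

end Vale.Agent.P267.H868
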