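import Vale.Agent.P267.H868.Uniq
import Vale.Agent.P267.H824.Desc
import Vale.Agent.P267.H877.Iface

/-!
# P267 / XM-B1 (helper868): the inputs `TwIn` from Riemann-Roch on the closed surface `X`
-/

set_option linter.unusedSectionVars false
set_option linter.unusedVariables false

open scoped Manifold ContDiff ComplexConjugate Matrix ComplexOrder Topology
open MeasureTheory Set Filter

noncomputable section

namespace Vale.Agent.P267.H868

open FL XT

section clm

variable {X : Type*} [TopologicalSpace X] [ChartedSpace C2 X]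
variable {V W : Type*} [NormedAddCommGroup V] [NormedSpace ℂ V] [NormedAddCommGroup W]
  [NormedSpace ℂ W]

theorem loc0_clm (T : V →L[ℂ] W) (κ : ℤ) (e : Ch X) (s : X → V) (z : C2) :
    loc0 κ e (fun x => T (s x)) z = T (loc0 κ e s z) := by
  simp [loc0]

theorem loc1_clm (T : V →L[ℂ] W) (κ : ℤ) (e : Ch X) (s : X → Fin 2 → V) (z : C2) (i : Fin 2) :
    loc1 κ e (fun x i => T (s x i)) z i = T (loc1 κ e s z i) := by
  simp [loc1]

theorem reg0_clm (T : V →L[ℂ] W) {n : WithTop ℕ∞} {κ : ℤ} {s : X → V} (hs : Reg0 n κ s) :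
    Reg0 n κ fun x => T (s x) := fun e he =>
  (((T.restrictScalars ℝ).contDiff.comp_contDiffOn (hs e he))).congr fun z _ => loc0_clm T κ e s z

theorem reg1_clm (T : V →L[ℂ] W) {n : WithTop ℕ∞} {κ : ℤ} {s : X → Fin 2 → V} (hs : Reg1 n κ s) :
    Reg1 n κ fun x i => T (s x i) := by
  intro e he
  rw [contDiffOn_pi]
  intro i
  exact (((T.restrictScalars ℝ).contDiff.comp_contDiffOn (contDiffOn_pi.1 (hs e he) i))).congr
    fun z _ => loc1_clm T κ e s z i

theorem dbar0_clm (T : V →L[ℂ] W) {κ : ℤ} {s : X → V} (hs : Reg0 ∞ κ s) (x : X) (i : Fin 2) :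
    dbar0 κ (fun x => T (s x)) x i = T (dbar0 κ s x i) := by
  have h : loc0 κ (chartAt C2 x) (fun x => T (s x)) = fun z => T (loc0 κ (chartAt C2 x) s z) := by
    funext z; exact loc0_clm T κ _ s z
  rw [dbar0, h]
  exact dzb_clm T (RR.Reg0.differentiableAt hs x) i

theorem dbar1_clm (T : V →L[ℂ] W) {κ : ℤ} {s : X → Fin 2 → V} (hs : Reg1 ∞ κ s) (x : X) :
    dbar1 κ (fun x i => T (s x i)) x = T (dbar1 κ s x) := by
  have h : ∀ i, (fun z => loc1 κ (chartAt C2 x) (fun x i => T (s x i)) z i) =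
      fun z => T (loc1 κ (chartAt C2 x) s z i) := fun i => by
    funext z; exact loc1_clm T κ _ s z i
  rw [dbar1, h, h, dzb_clm T (RR.Reg1.differentiableAt hs x 1),
    dzb_clm T (RR.Reg1.differentiableAt hs x 0), ← map_sub]
  rfl

end clm

/-! ### the trivial bundle -/

section triv

variable {X : Type*} [TopologicalSpace X] [ChartedSpace C2 X]

theorem act_triv (v : EuclideanSpace ℂ (Fin 1)) :
    LB.act (Matrix.single (0 : Fin 1) (0 : Fin 1) (1 : ℂ)) v = v := by
  ext i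
  fin_cases i
  simp [LB.act, Matrix.mulVec, dotProduct]

theorem triv_P (x : X) : (LB.triv (X := X) (0 : Fin 1)).P x = Matrix.single 0 0 1 := rfl

theorem sec_triv (s : X → EuclideanSpace ℂ (Fin 1)) : (LB.triv (X := X) (0 : Fin 1)).Sec s :=
  fun x => act_triv _

theorem sec1_triv (s : X → Fin 2 → EuclideanSpace ℂ (Fin 1)) :
    (LB.triv (X := X) (0 : Fin 1)).Sec1 s := fun x i => act_triv _

theorem dual_triv : (LB.triv (X := X) (0 : Fin 1)).dual = LB.triv 0 := by
  apply H824.lb_ext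
  funext x
  ext i j
  fin_cases i; fin_cases j
  rfl

theorem db0_triv (κ : ℤ) (s : X → EuclideanSpace ℂ (Fin 1)) (x : X) (i : Fin 2) :
    (LB.triv (X := X) (0 : Fin 1)).db0 0 κ s x i = dbar0 κ s x i := by
  rw [LB.db0, triv_P, act_triv]
  simp

theorem db1_triv (κ : ℤ) (s : X → Fin 2 → EuclideanSpace ℂ (Fin 1)) (x : X) :
    (LB.triv (X := X) (0 : Fin 1)).db1 0 κ s x = dbar1 κ s x := by
  rw [LB.db1, triv_P, act_triv]
  simp

theorem dbar0_const (c : ℂ) : dbar0 0 (fun _ : X => c) = 0 := by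
  funext x i
  have h3 : loc0 0 (chartAt C2 x) (fun _ : X => c) = fun _ => c := by
    rw [LB.loc0_zero]; rfl
  rw [dbar0, h3, dzb_const]
  rfl

theorem del0_const (c : ℂ) : del0 (fun _ : X => c) = 0 := by
  funext x i
  rw [del0]
  exact dz_const c _ i

theorem curv_triv {ι : Type} [Fintype ι] [DecidableEq ι] (i₀ : ι) :
    (LB.triv (X := X) i₀).curv = ⟨0, 0, 0⟩ := by
  have h1 : ∀ (x : X) i j k, dbar0 0 (fun y => (LB.triv (X := X) i₀).P y i j) x k = 0 := by
    intro x i j k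
    exact congrFun (congrFun (dbar0_const (X := X) _) x) k
  have h2 : ∀ (x : X) i j k, del0 (fun y => (LB.triv (X := X) i₀).P y i j) x k = 0 := by
    intro x i j k
    exact congrFun (congrFun (del0_const (X := X) _) x) k
  have h0 : (Matrix.of fun _ _ : ι => (0 : ℂ)) = 0 := rfl
  rw [LB.curv, TwoF.mk.injEq]
  refine ⟨?_, ?_, ?_⟩
  · funext x
    simp [LB.F20, h2, h0]
  · funext x
    ext k l
    simp [LB.F11, h1, h2, h0]
  · funext x
    simp [LB.F02, h1, h0]

theorem intX_zero : intX (0 : X → ℂ) = 0 := by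
  unfold intX
  split_ifs with h
  · have h1 := h.choose_spec 0 Fin.elim0 Fin.elim0 (fun i => i.elim0) (fun i => i.elim0)
      (fun i => i.elim0) (fun i => i.elim0) (fun x hx => by simp at hx)
    rw [← h1]
    simp
  · rfl

theorem isec_triv_left {ι ι' : Type} [Fintype ι] [DecidableEq ι] [Fintype ι'] [DecidableEq ι']
    (i₀ : ι) (L : LB X ι') : RR.isec (LB.triv (X := X) i₀) L = 0 := by
  have h : (LB.triv (X := X) i₀).curv.wedge L.curv = 0 := by
    rw [curv_triv]
    funext x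
    simp [TwoF.wedge]
  rw [RR.isec, h, intX_zero, mul_zero]

end triv

/-! ### vanishing of `p_g(X_m)` -/

variable {M : Type} [TopologicalSpace M] [ChartedSpace C2 M] [IsManifold 𝓘(ℂ, C2) ω M]
  (D : XTData M)

/-- translation of functions -/
def Tr0 : (M → ℂ) →ₗ[ℂ] (M → ℂ) where
  toFun a := fun x => a (D.sh 1 x)
  map_add' _ _ := rfl
  map_smul' _ _ := rfl

theorem Tr0_apply (a : M → ℂ) (x : M) : Tr0 D a x = a (D.sh 1 x) := rfl

theorem Tr0_pow (k : ℕ) (a : M → ℂ) (x : M) : (Tr0 D ^ k) a x = a (D.sh k x) := by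
  induction k generalizing x with
  | zero => simp
  | succ k ih =>
    rw [pow_succ', Module.End.mul_apply, Tr0_apply, ih, ← D.sh_add]
    push_cast
    rfl

/-- holomorphic two-forms -/
def ZK : Submodule ℂ (M → ℂ) where
  carrier := {s | Reg0 ∞ 1 s ∧ dbar0 1 s = 0}
  add_mem' := fun {a b} ha hb => ⟨RR.Reg0.add ha.1 hb.1, by
    rw [RR.dbar0_add ha.1 hb.1, ha.2, hb.2, add_zero]⟩
  zero_mem' := ⟨RR.reg0_zero 1, by
    have h := RR.dbar0_smul (κ := 1) (0 : ℂ) (RR.reg0_zero (X := M) (V := ℂ) 1)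
    rwa [zero_smul, zero_smul] at h⟩
  smul_mem' := fun c a ha => ⟨RR.Reg0.smul c ha.1, by rw [RR.dbar0_smul c ha.1, ha.2, smul_zero]⟩

/-- **`p_g(X_m) = 0`** from the absence of Floquet sections of `K` -/
theorem pg_of (hK : D.NoFloquetK) {m : ℕ} (hm : 0 < m) {s : M → ℂ} (hs : Reg0 ∞ 1 s)
    (h : dbar0 1 s = 0) (he : D.Equiv m 1 s) : s = 0 := by
  have key := mem_of_eig (Tr0 D) (ZK : Submodule ℂ (M → ℂ)) ⊥ ?_ hm ?_ ⟨hs, h⟩ ?_
  · exact (Submodule.mem_bot ℂ).1 key
  · intro x hx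
    refine ⟨(D.chartMap_sh 1).reg0_comp hx.1, ?_⟩
    funext y
    exact ((D.chartMap_sh 1).dbar0_comp 1 x y).trans (congrFun hx.2 _)
  · intro ν hν y hy hTy
    rw [Submodule.mem_bot]
    funext x
    refine hK ν y ?_ hy.1 (fun x i => congrFun (congrFun hy.2 x) i) (fun x => ?_) x
    · rintro rfl
      rw [zero_pow hm.ne'] at hν
      exact zero_ne_one hν
    · have := congrFun hTy x
      rw [Tr0_apply, D.sh_one] at this
      exact this
  · funext x
    rw [Tr0_pow, he x, one_smul]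

/-- no functions with a nontrivial unitary multiplier -/
theorem equiv_hol_eq_zero [ConnectedSpace M] {ν : ℂ} (hν : ‖ν‖ = 1) (h1 : ν ≠ 1) {u : M → ℂ}
    (hu : Reg0 ∞ 0 u) (h : dbar0 0 u = 0) (he : D.Equiv 1 ν u) : u = 0 := by
  obtain ⟨x0, hx0⟩ := exists_max_m D (reg0_continuous hu) (m := 1) one_pos hν
    (by simpa using he)
  have hc : ∀ x, u x = u x0 := const_of_ddb hu (by
    change del1 (dbar0 0 u) = 0
    rw [h, del1_zero]) hx0
  have h2 := he x0
  rw [hc, smul_eq_mul] at h2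
  have h3 : (ν - 1) * u x0 = 0 := by rw [sub_mul, ← h2, one_mul, sub_self]
  have h4 : u x0 = 0 := (mul_eq_zero.1 h3).resolve_left (sub_ne_zero.2 h1)
  funext x
  rw [hc x, h4]
  rfl

/-- the coordinate of `ℂ¹` -/
def pr0 : EuclideanSpace ℂ (Fin 1) →L[ℂ] ℂ := EuclideanSpace.proj 0

theorem pr0_apply (v : EuclideanSpace ℂ (Fin 1)) : pr0 v = v 0 := rfl

/-- the basis vector of `ℂ¹` -/
def in0 : ℂ →L[ℂ] EuclideanSpace ℂ (Fin 1) :=
  (ContinuousLinearMap.id ℂ ℂ).smulRight (EuclideanSpace.single 0 1)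

theorem pr0_in0 (c : ℂ) : pr0 (in0 c) = c := by
  simp [pr0, in0]

theorem in0_pr0 (v : EuclideanSpace ℂ (Fin 1)) : in0 (pr0 v) = v := by
  ext i
  fin_cases i
  simp [pr0, in0]

theorem eq_zero_of_pr0 {v : EuclideanSpace ℂ (Fin 1)} (h : pr0 v = 0) : v = 0 := by
  rw [← in0_pr0 v, h, map_zero]

/-- **Riemann-Roch on `X`** implies `H¹(X, L_ν) = 0` for the flat line bundles `L_ν`, `|ν| = 1`,
`ν ≠ 1`. -/
theorem tw_of [ConnectedSpace M] {X : Type} [TopologicalSpace X] [ChartedSpace C2 X]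
    [IsManifold 𝓘(ℂ, C2) ω X] {q : M → X} (hq : H824.IsQuot D 1 q)
    (hF : RR.FiniteStmt X) (hS : RR.SerreStmt X) (hRR : RR.RRStmt X)
    (hO : RR.chi (RR.OX X) 0 0 = 0) {ι' : Type} [Fintype ι'] [DecidableEq ι']
    (LK : LB X ι') (hLK : RR.IsCanon LK) (hK : D.NoFloquetK) {ν : ℂ} (hν : ‖ν‖ = 1) (h1 : ν ≠ 1)
    {a : M → Fin 2 → ℂ} (ha : Reg1 ∞ 0 a) (hc : dbar1 0 a = 0) (he : D.Equiv 1 ν a) :
    ∃ u : M → ℂ, Reg0 ∞ 0 u ∧ dbar0 0 u = a ∧ D.Equiv 1 ν u := by
  have hν0 : ν ≠ 0 := by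
    rintro rfl
    rw [norm_zero] at hν
    exact zero_ne_one hν
  have hP : ∀ x, (LB.triv (X := M) (0 : Fin 1)).P (D.sh 1 x) =
    (LB.triv (X := M) (0 : Fin 1)).P x := fun _ => rfl
  have hL' : hq.lbd (LB.triv (X := M) (0 : Fin 1)) hP = LB.triv 0 := by
    apply H824.lb_ext
    funext y
    obtain ⟨x, rfl⟩ := hq.surj y
    rw [hq.lbd_P]
    rfl
  have key := H824.eqEx (D := D) one_ne_zero hq hF hS hRR hO LK hLK
    (LB.triv (X := M) (0 : Fin 1)) 0 ⟨RR.reg1_zero 0, fun x => by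
      have h2 : (LB.triv (X := M) (0 : Fin 1)).F02 x = 0 :=
        congrFun (congrArg TwoF.f02 (curv_triv (X := M) (0 : Fin 1))) x
      rw [h2, add_zero]
      exact congrFun (H469.dbar1_zero (X := M) (V := ℂ)) x⟩ hP (fun _ => rfl) (μ := ν) hν0 0
    (fun u hu _ hdu hue => by
      have h2 : (fun x => pr0 (u x)) = 0 := by
        refine equiv_hol_eq_zero D hν h1 (reg0_clm pr0 hu) ?_ ?_
        · funext x i
          rw [dbar0_clm pr0 hu, ← db0_triv, hdu, map_zero]
          rfl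
        · intro x
          change pr0 (u (D.sh 1 x)) = ν • pr0 (u x)
          rw [hue x, map_smul]
      funext x
      exact eq_zero_of_pr0 (congrFun h2 x))
    (fun v hv _ hdv hve => by
      rw [dual_triv, neg_zero] at hdv
      funext x
      apply eq_zero_of_pr0
      refine hK ν⁻¹ (fun x => pr0 (v x)) (inv_ne_zero hν0) (reg0_clm pr0 hv) (fun x i => ?_)
        (fun x => ?_) x
      · rw [dbar0_clm pr0 hv, ← db0_triv, hdv, map_zero]
      · have := hve x
        rw [D.sh_one] at this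
        rw [this, map_smul])
    (by rw [hL', isec_triv_left, isec_triv_left]; simp)
  obtain ⟨c, hc0, u, hu, -, hue, hdu⟩ := key (fun _ x i => in0 (a x i)) (fun j =>
    ⟨reg1_clm in0 ha, sec1_triv _, fun x => by
      rw [db1_triv, dbar1_clm in0 ha, hc]
      simp, fun x => by
      funext i
      change in0 (a (D.sh 1 x) i) = ν • in0 (a x i)
      rw [he x, ← map_smul]
      rfl⟩)
  have hc00 : c 0 ≠ 0 := by
    intro h
    apply hc0
    funext j
    fin_cases j
    exact h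
  refine ⟨(c 0)⁻¹ • fun x => pr0 (u x), RR.Reg0.smul _ (reg0_clm pr0 hu), ?_, ?_⟩
  · rw [RR.dbar0_smul _ (reg0_clm pr0 hu)]
    funext x i
    have h2 : dbar0 0 u x i = c 0 • in0 (a x i) := by
      rw [← db0_triv, hdu x i]
      exact Fin.sum_univ_one _
    change (c 0)⁻¹ * (dbar0 0 (fun x => pr0 (u x)) x i) = a x i
    rw [dbar0_clm pr0 hu, h2, map_smul, pr0_in0, smul_eq_mul, inv_mul_cancel_left₀ hc00]
  · intro x
    change (c 0)⁻¹ • pr0 (u (D.sh 1 x)) = ν • ((c 0)⁻¹ • pr0 (u x))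
    rw [hue x, map_smul, smul_comm]

end Vale.Agent.P267.H868
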