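import Vale.Agent.P267.H868.Main

/-!
# P267 / XM-B1 (helper868): `∂̄f` is not `∂̄`-exact on `X_m`; uniqueness
-/

set_option linter.unusedSectionVars false
set_option linter.unusedVariables false

open scoped Manifold ContDiff ComplexConjugate Matrix ComplexOrder Topology
open MeasureTheory Set Filter

noncomputable section

namespace Vale.Agent.P267.H868

open FL XT

variable {M : Type} [TopologicalSpace M] [ChartedSpace C2 M] [IsManifold 𝓘(ℂ, C2) ω M]

variable (D : XTData M)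

/-- a continuous function `u` with `u ∘ γ^m = ν • u`, `|ν| = 1`, attains the maximum of its
modulus -/
theorem exists_max_m {V : Type*} [NormedAddCommGroup V] [NormedSpace ℂ V] {u : M → V}
    (hu : Continuous u) {m : ℕ} (hm : 0 < m) {ν : ℂ} (hν : ‖ν‖ = 1) (h : D.Equiv m ν u)
    [Nonempty M] : ∃ x0, ∀ x, ‖u x‖ ≤ ‖u x0‖ := by
  have hinv : ∀ (k : ℤ) x, ‖u (D.sh (m * k) x)‖ = ‖u x‖ := by
    intro k
    refine XTData.sh_induction (P := fun k => ∀ x, ‖u (D.sh (m * k) x)‖ = ‖u x‖)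
      (fun x => by simp) (fun k ih x => ?_) (fun k ih x => ?_) k
    · rw [show (m : ℤ) * (k + 1) = m + m * k by ring, D.sh_add, h, norm_smul, hν, one_mul, ih]
    · rw [← ih x]
      have h1 : D.sh (m * k) x = D.sh m (D.sh (m * (k - 1)) x) := by
        rw [← D.sh_add]; congr 1; ring
      rw [h1, h, norm_smul, hν, one_mul]
  have hm' : (0 : ℝ) < m := by exact_mod_cast hm
  have hmv : ∀ x : M, D.sh (m * (-⌊D.f x / m⌋)) x ∈ D.f ⁻¹' Icc 0 m := by
    intro x
    rw [mem_preimage, D.f_sh]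
    have h1 := Int.floor_le (D.f x / m)
    have h2 := (Int.lt_floor_add_one (D.f x / m)).le
    rw [le_div_iff₀ hm'] at h1
    rw [div_le_iff₀ hm'] at h2
    push_cast
    constructor <;> nlinarith
  obtain ⟨y⟩ := ‹Nonempty M›
  obtain ⟨x0, -, hx0⟩ := (D.f_proper 0 m).exists_isMaxOn ⟨_, hmv y⟩ hu.norm.continuousOn
  refine ⟨x0, fun x => ?_⟩
  have h2 : ‖u (D.sh (m * (-⌊D.f x / m⌋)) x)‖ ≤ ‖u x0‖ := hx0 (hmv x)
  rwa [hinv] at h2

/-- `exp (c g)` is holomorphic if `g` is -/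
theorem dbar0_exp {g : M → ℂ} (hg : Reg0 ∞ 0 g) (h : dbar0 0 g = 0) (c : ℂ) :
    Reg0 ∞ 0 (fun x => Complex.exp (c * g x)) ∧ dbar0 0 (fun x => Complex.exp (c * g x)) = 0 := by
  have hl : ∀ e : Ch M, loc0 0 e (fun x => Complex.exp (c * g x)) =
      fun z => Complex.exp (c * loc0 0 e g z) := by
    intro e
    rw [LB.loc0_zero, LB.loc0_zero]
    rfl
  constructor
  · intro e he
    rw [hl]
    exact (contDiffOn_const.mul (hg e he)).cexp
  · funext x i
    rw [dbar0, hl]
    have h1 : DifferentiableAt ℂ (loc0 0 (chartAt C2 x) g) (chartAt C2 x x) :=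
      (differentiableAt_complex_iff (RR.Reg0.differentiableAt hg x)).2
        fun j => congrFun (congrFun h x) j
    exact dzb_of_hol ((h1.const_mul c).cexp) i

/-- `∂̄f` is not `∂̄`-exact on `X_m` -/
theorem f_not_exact [ConnectedSpace M] {m : ℕ} (hm : 0 < m) {t : ℂ} {u : M → ℂ}
    (hu : Reg0 ∞ 0 u) (hue : D.Equiv m 1 u)
    (h : t • dbar0 0 (fun x => (D.f x : ℂ)) = dbar0 0 u) : t = 0 := by
  by_contra ht
  have hm' : (m : ℂ) ≠ 0 := by exact_mod_cast hm.ne'
  set g : M → ℂ := t • (fun x => (D.f x : ℂ)) + (-1 : ℂ) • u with hg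
  have hgs : Reg0 ∞ 0 g := RR.Reg0.add (RR.Reg0.smul t D.f_smooth) (RR.Reg0.smul _ hu)
  have hgb : dbar0 0 g = 0 := by
    rw [hg, RR.dbar0_add (RR.Reg0.smul t D.f_smooth) (RR.Reg0.smul _ hu),
      RR.dbar0_smul t D.f_smooth, RR.dbar0_smul _ hu, h, neg_one_smul, add_neg_cancel]
  have hge : ∀ x, g (D.sh m x) = g x + t * m := by
    intro x
    simp only [hg, Pi.add_apply, Pi.smul_apply, D.f_sh, hue x, smul_eq_mul]
    push_cast
    ring
  set c : ℂ := Real.pi * Complex.I / (t * m) with hc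
  obtain ⟨h1, h2⟩ := dbar0_exp hgs hgb c
  have h3 : D.Equiv m (-1) (fun x => Complex.exp (c * g x)) := by
    intro x
    change Complex.exp (c * g (D.sh m x)) = (-1 : ℂ) • Complex.exp (c * g x)
    rw [hge, mul_add, Complex.exp_add, hc, div_mul_cancel₀ _ (mul_ne_zero ht hm'),
      Complex.exp_pi_mul_I, smul_eq_mul, mul_comm]
  obtain ⟨x0, hx0⟩ := exists_max_m D (reg0_continuous h1) hm (by simp) h3
  have hddb : ddb (fun x => Complex.exp (c * g x)) = 0 := by
    change del1 (dbar0 0 (fun x => Complex.exp (c * g x))) = 0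
    rw [h2, del1_zero]
  have h4 := const_of_ddb h1 hddb hx0 (D.sh m x0)
  have h5 : Complex.exp (c * g (D.sh m x0)) = (-1 : ℂ) • Complex.exp (c * g x0) := h3 x0
  have h6 : Complex.exp (c * g (D.sh m x0)) = Complex.exp (c * g x0) := h4
  have h7 : Complex.exp (c * g (D.sh m x0)) = -Complex.exp (c * g x0) := by
    rw [h5]; simp
  rw [h7] at h6
  have h8 : Complex.exp (c * g x0) = 0 := by
    have : (2 : ℂ) * Complex.exp (c * g x0) = 0 := by linear_combination (-1 : ℂ) * h6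
    exact (mul_eq_zero.1 this).resolve_left two_ne_zero
  exact Complex.exp_ne_zero _ h8

/-- holomorphic functions on `X_m` are constant -/
theorem hol_const [ConnectedSpace M] {m : ℕ} (hm : 0 < m) {u : M → ℂ} (hu : Reg0 ∞ 0 u)
    (hue : D.Equiv m 1 u) (h : dbar0 0 u = 0) : ∃ c : ℂ, u = fun _ => c := by
  obtain ⟨x0, hx0⟩ := exists_max_m D (reg0_continuous hu) hm (by simp) hue
  refine ⟨u x0, funext fun x => const_of_ddb hu ?_ hx0 x⟩
  change del1 (dbar0 0 u) = 0
  rw [h, del1_zero]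

end Vale.Agent.P267.H868
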